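import Vale.Agent.P366.CF.Defs
import Vale.Agent.P366.H375.CH.LeafOf

/-! Foliated initial data: basic facts. -/

open MeasureTheory Metric Filter Topology Set
open scoped ContDiff ENNReal

noncomputable section
namespace Vale.Agent.P366.CF

open Vale.Agent.P366 (pd E flux)
open Vale.Agent.P366.H353.N
open Vale.Agent.P366.Kerr (NullCone Psi)
open Vale.Agent.P366.KSN (Y dts sg Ms OO mem_OO)
open Vale.Agent.P366.Convex (IsSupport ray)
open Vale.Agent.P366.CH (supC supH bp mc Bodies bodies_one)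

variable {n : ℕ} {h : E n → ℝ} {nu : Fin n → E n → ℝ} {W : E n → ℝ} {D : Stmt.Exterior n}
  {x y : E n} {s : ℝ}

/-! ### derivatives in the sense of the statement -/

theorem spd_eq {F : E n → ℝ} (hF : ContDiffAt ℝ ∞ F y) (i : Fin n) :
    Stmt.pd i F y = pd i F y := KSN.stmt_pd (hF.differentiableAt (by simp)) i

theorem spd_cd {F : E n → ℝ} (hF : ContDiffAt ℝ ∞ F y) (i : Fin n) :
    ContDiffAt ℝ ∞ (Stmt.pd i F) y := by
  have hev : ∀ᶠ z in 𝓝 y, ContDiffAt ℝ 1 F z :=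
    (hF.of_le (by norm_cast)).eventually (by simp)
  have h1 : ContDiffAt ℝ ∞ (pd i F) y := by
    have h3 : ContDiffAt ℝ ∞ (fderiv ℝ F) y := hF.fderiv_right (by simp)
    exact h3.clm_apply contDiffAt_const
  refine h1.congr_of_eventuallyEq ?_
  filter_upwards [hev] with z hz
  exact KSN.stmt_pd (hz.differentiableAt (by simp)) i

/-! ### the region -/

lemma bodies (hL : IsFol h nu W D) [Fact (3 ≤ n)] : Bodies D.F fun _ : Unit => supC hL.sup :=
  bodies_one hL.sup D.dom.1.continuous hL.dom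

lemma mem_iff [Fact (3 ≤ n)] (hL : IsFol h nu W D) :
    0 ≤ D.F y ↔ ∃ x s, ‖x‖ = 1 ∧ (supC hL.sup).U x ≤ s ∧ Y (supC hL.sup).H x s = y :=
  ((bodies hL).dom y).trans ⟨fun h1 => h1 (), fun h1 _ => h1⟩

lemma mem_Y [Fact (3 ≤ n)] (hL : IsFol h nu W D) (hx : ‖x‖ = 1) (hs : 1 ≤ s) :
    0 ≤ D.F (Y (supC hL.sup).H x s) := (mem_iff hL).2 ⟨x, s, hx, hs, rfl⟩

lemma F_pos [Fact (3 ≤ n)] (hL : IsFol h nu W D) (hx : ‖x‖ = 1) (hs : 1 < s) :
    0 < D.F (Y (supC hL.sup).H x s) :=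
  (bodies hL).pos_out D.dom.1 D.dom.2.1 fun _ => mem_OO.2 ⟨x, s, hx, hs, rfl⟩

lemma Y_bp [Fact (3 ≤ n)] (hL : IsFol h nu W D) (hx : ‖x‖ = 1) :
    Y (supC hL.sup).H x ((supC hL.sup).U x) = ray h x 0 := CH.bp_sup hL.sup hx

lemma F_ray [Fact (3 ≤ n)] (hL : IsFol h nu W D) (hx : ‖x‖ = 1) : D.F (ray h x 0) = 0 := by
  have h1 := (bodies hL).bdr () x hx
  rwa [CH.bp_sup hL.sup hx] at h1

lemma one_W_pos (hL : IsFol h nu W D) (hy : 0 ≤ D.F y) : 0 < 1 + W y := by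
  have hxx := hL.unit y hy
  have h0 : (fun i => nu i y) ≠ 0 := by
    intro e
    have : ∀ i, nu i y = 0 := fun i => congrFun e i
    simp [this] at hxx
  have h1 := (D.pos y hy).dotProduct_mulVec_pos h0
  have e : star (fun i => nu i y) ⬝ᵥ (Stmt.mat D.g y).mulVec (fun i => nu i y) = 1 + W y := by
    show ∑ i, star (nu i y) * ∑ j, D.g y i j * nu j y = _
    simp only [hL.met y hy, star_trivial]
    have e1 : ∀ i, ∑ j, ((if i = j then (1 : ℝ) else 0) + W y * nu i y * nu j y) * nu j y =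
        nu i y + W y * nu i y := by
      intro i
      have e2 : ∀ j, ((if i = j then (1 : ℝ) else 0) + W y * nu i y * nu j y) * nu j y =
          (if i = j then nu j y else 0) + W y * nu i y * nu j y ^ 2 := fun j => by
        split_ifs <;> ring
      simp only [e2, Finset.sum_add_distrib, Finset.sum_ite_eq, Finset.mem_univ, if_true,
        ← Finset.mul_sum, hxx]
      ring
    simp only [e1]
    have e3 : ∀ i, nu i y * (nu i y + W y * nu i y) = (1 + W y) * nu i y ^ 2 := fun i => by ring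
    simp only [e3, ← Finset.mul_sum, hxx]
    ring
  rw [e] at h1
  exact h1

/-! ### smoothness -/

section smooth

variable (hnu : ∀ i, ContDiffAt ℝ ∞ (nu i) y)
include hnu

theorem cur_cdB (i : Fin n) : ContDiffAt ℝ ∞ (cur nu i) y :=
  ContDiffAt.sum fun j _ => (hnu j).mul (spd_cd (hnu i) j)

theorem mcl_cdB : ContDiffAt ℝ ∞ (mcl nu) y :=
  ContDiffAt.sum fun i _ => spd_cd (hnu i) i

theorem col_cd (i : Fin n) : ContDiffAt ℝ ∞ (col nu D.K i) y :=
  ContDiffAt.sum fun j _ => ((D.smooth i j).2.contDiffAt).mul (hnu j)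

theorem nn_cd : ContDiffAt ℝ ∞ (nn nu D.K) y :=
  ContDiffAt.sum fun i _ => (col_cd hnu i).mul (hnu i)

theorem trL_cd : ContDiffAt ℝ ∞ (trL nu D.K) y :=
  (ContDiffAt.sum fun i _ => (D.smooth i i).2.contDiffAt).sub (nn_cd hnu)

theorem kap_cd (h0 : mcl nu y ≠ 0) : ContDiffAt ℝ ∞ (kap nu D.K) y :=
  (trL_cd hnu).div (mcl_cdB hnu) h0

theorem rat_cd (hW : ContDiffAt ℝ ∞ W y) (h1 : 1 + W y ≠ 0) (h0 : mcl nu y ≠ 0) :
    ContDiffAt ℝ ∞ (rat nu W D.K) y :=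
  (kap_cd hnu h0).mul ((contDiffAt_const.add hW).sqrt h1)

theorem alf_cd (hW : ContDiffAt ℝ ∞ W y) (h1 : 0 < 1 + W y) (i : Fin n) :
    ContDiffAt ℝ ∞ (alf nu W D.K i) y :=
  ((col_cd hnu i).sub ((nn_cd hnu).mul (hnu i))).div ((contDiffAt_const.add hW).sqrt h1.ne')
    (Real.sqrt_pos.2 h1).ne'

theorem grd_cdB {f : E n → ℝ} (hf : ContDiffAt ℝ ∞ f y) (i : Fin n) :
    ContDiffAt ℝ ∞ (grd nu f i) y :=
  (spd_cd hf i).sub ((ContDiffAt.sum fun j _ => (spd_cd hf j).mul (hnu j)).mul (hnu i))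

theorem acc_cdB (hW : ContDiffAt ℝ ∞ W y) (h1 : 1 + W y ≠ 0) (i : Fin n) :
    ContDiffAt ℝ ∞ (acc nu W i) y :=
  (grd_cdB hnu hW i).div (contDiffAt_const.mul (contDiffAt_const.add hW))
    (mul_ne_zero two_ne_zero h1)

theorem vv_cd (hW : ContDiffAt ℝ ∞ W y) (h1 : 1 + W y ≠ 0) (h0 : mcl nu y ≠ 0) :
    ContDiffAt ℝ ∞ (vv nu W D.K) y :=
  (hW.div (contDiffAt_const.add hW) h1).add ((kap_cd hnu h0).pow 2)

theorem XF_cd (hW : ContDiffAt ℝ ∞ W y) (h1 : 0 < 1 + W y) (h0 : mcl nu y ≠ 0) (i : Fin n) :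
    ContDiffAt ℝ ∞ (XF nu W D.K i) y :=
  ((((vv_cd hnu hW h1.ne' h0).div_const 2).mul (((mcl_cdB hnu).mul (hnu i)).add
    (cur_cdB hnu i))).sub (acc_cdB hnu hW h1.ne' i)).sub
      ((rat_cd hnu hW h1.ne' h0).mul (alf_cd hnu hW h1 i))

end smooth

theorem XF_smooth (hL : IsFol h nu W D) (hy : 0 ≤ D.F y) (i : Fin n) :
    ContDiffAt ℝ ∞ (XF nu W D.K i) y :=
  XF_cd (hL.smN y hy) (hL.smW y hy) (one_W_pos hL hy) (hL.mcp y hy).ne' i

/-! ### algebra of the unit vector -/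

lemma evB_pos (hy : 0 < D.F y) : ∀ᶠ z in 𝓝 y, 0 < D.F z :=
  (D.dom.1.continuous.continuousAt).eventually (lt_mem_nhds hy)

/-- the derivative of the unit vector is orthogonal to it -/
lemma nu_dnu (hL : IsFol h nu W D) (hy : 0 < D.F y) (j : Fin n) :
    ∑ i, nu i y * pd j (nu i) y = 0 := by
  have hd : ∀ i, DifferentiableAt ℝ (nu i) y := fun i =>
    (hL.smN y hy.le i).differentiableAt (by simp)
  have e : (fun z => ∑ i, nu i z ^ 2) =ᶠ[𝓝 y] fun _ => (1 : ℝ) :=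
    (evB_pos hy).mono fun z hz => hL.unit z hz.le
  have h1 : fderiv ℝ (fun z => ∑ i, nu i z ^ 2) y = 0 := by
    rw [e.fderiv_eq]
    simp
  have h2 : HasFDerivAt (fun z => ∑ i, nu i z ^ 2)
      (∑ i, (2 * nu i y) • fderiv ℝ (nu i) y) y := by
    have : ∀ i ∈ Finset.univ, HasFDerivAt (fun z => nu i z ^ 2)
        ((2 * nu i y) • fderiv ℝ (nu i) y) y := fun i _ => by
      have := (hd i).hasFDerivAt.pow 2
      simpa [pow_one] using this
    exact HasFDerivAt.fun_sum this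
  rw [h2.fderiv] at h1
  have h3 := congrArg (fun l : E n →L[ℝ] ℝ => l (EuclideanSpace.single j 1)) h1
  simp only [sum_apply, smul_apply, smul_eq_mul, zero_apply] at h3
  have h4 : ∑ i, 2 * nu i y * fderiv ℝ (nu i) y (EuclideanSpace.single j 1) =
      2 * ∑ i, nu i y * pd j (nu i) y := by
    rw [Finset.mul_sum]
    exact Finset.sum_congr rfl fun i _ => by unfold Vale.Agent.P366.pd; ring
  rw [h4] at h3
  linarith

end Vale.Agent.P366.CF
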