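import Vale.Agent.P366.CF.Base

/-! Foliated initial data: the mean curvature of the boundary. -/

open MeasureTheory Metric Filter Topology Set
open scoped ContDiff ENNReal

noncomputable section
namespace Vale.Agent.P366.CF

open Vale.Agent.P366 (pd E flux fderiv_eq_sum_pd)
open Vale.Agent.P366.H353.N
open Vale.Agent.P366.Kerr (NullCone Psi)
open Vale.Agent.P366.KSN (Y dts sg Ms OO mem_OO)
open Vale.Agent.P366.Convex (IsSupport ray)
open Vale.Agent.P366.CH (supC supH bp mc Bodies bodies_one sup_sm sup_hom sup_hs_x supH_hs)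

variable {n : ℕ} {h : E n → ℝ} {nu : Fin n → E n → ℝ} {W : E n → ℝ} {D : Stmt.Exterior n}
  {x y z : E n} {s : ℝ}

/-- every point of the region is a limit of interior points -/
lemma ne_bot [Fact (3 ≤ n)] (hL : IsFol h nu W D) (hy : 0 ≤ D.F y) :
    (𝓝[{z | 0 < D.F z}] y).NeBot := by
  obtain ⟨x, s, hx, hs, rfl⟩ := (mem_iff hL).1 hy
  rw [← mem_closure_iff_nhdsWithin_neBot]
  have hc : Continuous fun t : ℝ => Y (supC hL.sup).H x t := by
    have : (fun t : ℝ => Y (supC hL.sup).H x t) = fun t : ℝ =>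
        (WithLp.toLp 2 fun i => pd i (supC hL.sup).H x : E n) + t • x := by
      funext t
      ext i
      simp [Y]
    rw [this]
    fun_prop
  have h1 : Tendsto (fun t : ℝ => Y (supC hL.sup).H x t) (𝓝[>] s)
      (𝓝 (Y (supC hL.sup).H x s)) := (hc.tendsto s).mono_left nhdsWithin_le_nhds
  refine mem_closure_of_tendsto h1 ?_
  filter_upwards [self_mem_nhdsWithin] with t ht
  exact F_pos hL hx (lt_of_le_of_lt hs ht)

lemma ext_eq [Fact (3 ≤ n)] (hL : IsFol h nu W D) (hy : 0 ≤ D.F y) {G H : E n → ℝ}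
    (hG : ContinuousAt G y) (hH : ContinuousAt H y) (h0 : ∀ z, 0 < D.F z → G z = H z) :
    G y = H y := by
  have := ne_bot hL hy
  have h1 : Tendsto G (𝓝[{z | 0 < D.F z}] y) (𝓝 (G y)) := hG.tendsto.mono_left nhdsWithin_le_nhds
  have h2 : Tendsto H (𝓝[{z | 0 < D.F z}] y) (𝓝 (H y)) := hH.tendsto.mono_left nhdsWithin_le_nhds
  refine tendsto_nhds_unique (h1.congr' ?_) h2
  filter_upwards [self_mem_nhdsWithin] with z hz using h0 z hz

lemma ext_le [Fact (3 ≤ n)] (hL : IsFol h nu W D) (hy : 0 ≤ D.F y) {G H : E n → ℝ}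
    (hG : ContinuousAt G y) (hH : ContinuousAt H y) (h0 : ∀ z, 0 < D.F z → G z ≤ H z) :
    G y ≤ H y := by
  have := ne_bot hL hy
  have h1 : Tendsto G (𝓝[{z | 0 < D.F z}] y) (𝓝 (G y)) := hG.tendsto.mono_left nhdsWithin_le_nhds
  have h2 : Tendsto H (𝓝[{z | 0 < D.F z}] y) (𝓝 (H y)) := hH.tendsto.mono_left nhdsWithin_le_nhds
  refine le_of_tendsto_of_tendsto h1 h2 ?_
  filter_upwards [self_mem_nhdsWithin] with z hz using h0 z hz

lemma pd_contAt {f : E n → ℝ} (hf : ContDiffAt ℝ ∞ f y) (i : Fin n) : ContinuousAt (pd i f) y := by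
  have h3 : ContDiffAt ℝ ∞ (fderiv ℝ f) y := hf.fderiv_right (by simp)
  have h4 : ContDiffAt ℝ ∞ (pd i f) y := h3.clm_apply contDiffAt_const
  exact h4.continuousAt

/-- the derivative of the unit vector is orthogonal to it, up to the boundary -/
lemma nu_dnu' [Fact (3 ≤ n)] (hL : IsFol h nu W D) (hy : 0 ≤ D.F y) (j : Fin n) :
    ∑ i, nu i y * pd j (nu i) y = 0 := by
  refine ext_eq hL hy (G := fun z => ∑ i, nu i z * pd j (nu i) z) (H := fun _ => 0) ?_
    continuousAt_const (fun z hz => nu_dnu hL hz j)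
  exact tendsto_finsetSum _ fun i _ =>
    (hL.smN y hy i).continuousAt.mul (pd_contAt (hL.smN y hy i) j)

/-- the same with the derivatives of the statement -/
lemma nu_dnu_s [Fact (3 ≤ n)] (hL : IsFol h nu W D) (hy : 0 ≤ D.F y) (j : Fin n) :
    ∑ i, nu i y * Stmt.pd j (nu i) y = 0 := by
  rw [← nu_dnu' hL hy j]
  exact Finset.sum_congr rfl fun i _ => by rw [spd_eq (hL.smN y hy i)]

/-- `∂_ν ν` is tangential -/
lemma nu_cur [Fact (3 ≤ n)] (hL : IsFol h nu W D) (hy : 0 ≤ D.F y) :
    ∑ i, nu i y * cur nu i y = 0 := by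
  unfold cur
  simp only [Finset.mul_sum]
  rw [Finset.sum_comm]
  have e : ∀ j, ∑ i, nu i y * (nu j y * Stmt.pd j (nu i) y) =
      nu j y * ∑ i, nu i y * Stmt.pd j (nu i) y := fun j => by
    rw [Finset.mul_sum]
    exact Finset.sum_congr rfl fun i _ => by ring
  simp only [e, nu_dnu_s hL hy, mul_zero, Finset.sum_const_zero]

/-- `A ν = 0` -/
lemma sff_nu [Fact (3 ≤ n)] (hL : IsFol h nu W D) (hy : 0 ≤ D.F y) (i : Fin n) :
    ∑ j, sff nu i j y * nu j y = 0 := by
  unfold sff
  have e : ∀ j, (Stmt.pd i (nu j) y - nu i y * cur nu j y) * nu j y =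
      nu j y * Stmt.pd i (nu j) y - nu i y * (nu j y * cur nu j y) := fun j => by ring
  simp only [e, Finset.sum_sub_distrib, ← Finset.mul_sum, nu_dnu_s hL hy, nu_cur hL hy]
  ring

/-- the trace of `A` -/
lemma sff_tr [Fact (3 ≤ n)] (hL : IsFol h nu W D) (hy : 0 ≤ D.F y) :
    ∑ i, sff nu i i y = mcl nu y := by
  unfold sff mcl
  simp only [Finset.sum_sub_distrib, nu_cur hL hy, sub_zero]

/-! ### the boundary -/

/-- The point with the normal `z`. -/
def gq (h : E n → ℝ) (z : E n) : E n := WithLp.toLp 2 fun i => pd i h z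

lemma gq_cd (sh : Sm h) (hz : z ≠ 0) : ContDiffAt ℝ ∞ (gq h) z := by
  rw [contDiffAt_euclidean]
  exact fun i => (sh.pd i) z hz

lemma pd_comp (sh : Sm h) {F : E n → ℝ} (hz : z ≠ 0) (hFd : DifferentiableAt ℝ F (gq h z))
    (k : Fin n) : pd k (fun z => F (gq h z)) z = ∑ l, pd l F (gq h z) * hs h k l z := by
  have hG : DifferentiableAt ℝ (gq h) z := (gq_cd sh hz).differentiableAt (by simp)
  have h1 := hFd.hasFDerivAt.comp z hG.hasFDerivAt
  unfold Vale.Agent.P366.pd
  rw [show (fun z => F (gq h z)) = F ∘ gq h from rfl, h1.fderiv]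
  rw [ContinuousLinearMap.comp_apply, fderiv_eq_sum_pd]
  refine Finset.sum_congr rfl fun i _ => ?_
  have h4 : HasFDerivAt (fun z => gq h z i)
      ((EuclideanSpace.proj (𝕜 := ℝ) i : E n →L[ℝ] ℝ).comp (fderiv ℝ (gq h) z)) z :=
    (EuclideanSpace.proj (𝕜 := ℝ) i : E n →L[ℝ] ℝ).hasFDerivAt.comp _ hG.hasFDerivAt
  have h5 : hs h k i z = pd k (fun z => gq h z i) z := rfl
  rw [h5]
  unfold Vale.Agent.P366.pd
  rw [h4.fderiv]
  change (fderiv ℝ (gq h) z (EuclideanSpace.single k 1)) i * _ =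
    _ * (fderiv ℝ (gq h) z (EuclideanSpace.single k 1)) i
  ring

lemma gq_ray (hh : IsSupport h) (hx : ‖x‖ = 1) : gq h x = ray h x 0 := by
  ext i
  show pd i h x = Stmt.pd i h x + 0 * x i
  rw [CH.sup_pd hh (ne_zero_of_one hx)]
  ring

/-- on the boundary `ν` is the Gauss map -/
lemma nu_gq (hL : IsFol h nu W D) (hz : z ≠ 0) (i : Fin n) : nu i (gq h z) = X3.nv i z := by
  have hn : 0 < ‖z‖ := norm_pos_iff.2 hz
  have hu : ‖‖z‖⁻¹ • z‖ = 1 := by
    rw [norm_smul, norm_inv, norm_norm, inv_mul_cancel₀ hn.ne']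
  have e : gq h z = gq h (‖z‖⁻¹ • z) := by
    ext j
    show pd j h z = pd j h (‖z‖⁻¹ • z)
    have := ((sup_hom hL.sup).pd (sup_sm hL.sup) j) z hz (‖z‖⁻¹) (inv_pos.2 hn)
    rw [this]
    norm_num
  rw [e, gq_ray hL.sup hu, hL.bdr _ hu]
  unfold X3.nv
  rw [PiLp.smul_apply, smul_eq_mul]
  field_simp

theorem mcl_bdr [Fact (3 ≤ n)] (hL : IsFol h nu W D) (hx : ‖x‖ = 1) :
    mcl nu (ray h x 0) * dts (supC hL.sup).H ((supC hL.sup).U x) x =
      sg (supC hL.sup).H ((supC hL.sup).U x) x := by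
  have hx0 := ne_zero_of_one hx
  have hxx : ∑ i, x i * x i = 1 := sum_mul_self hx
  have sh := sup_sm hL.sup
  have hF0 : 0 ≤ D.F (ray h x 0) := (F_ray hL hx).ge
  set p := ray h x 0 with hp
  have hgp : gq h x = p := gq_ray hL.sup hx
  have hcd : ∀ i, ContDiffAt ℝ ∞ (nu i) p := fun i => hL.smN p hF0 i
  -- the chain rule
  have h1 : ∀ i k, ∑ l, pd l (nu i) p * hs h k l x = pr x k i := by
    intro i k
    have e1 := pd_comp sh hx0 (F := nu i) (by
      rw [hgp]; exact (hcd i).differentiableAt (by simp)) k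
    rw [hgp, pd_congr' (f := X3.nv i) (fun z hz => nu_gq hL hz i) hx0, X3.pd_nv hx] at e1
    exact e1.symm
  -- the matrices
  set M : Matrix (Fin n) (Fin n) ℝ := Ms (supC hL.sup).H ((supC hL.sup).U x) x with hM
  have hMe : ∀ i j, M i j = hs h i j x + x i * x j := by
    intro i j
    show hs (supH h) i j x + 1 * pr x i j + x i * x j = _
    rw [supH_hs hL.sup hx]
    ring
  set B : Matrix (Fin n) (Fin n) ℝ := Matrix.of fun i l => pd l (nu i) p with hB
  set b : Fin n → ℝ := fun i => ∑ l, pd l (nu i) p * x l with hb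
  have h2 : ∀ i k, (B * M) i k = pr x k i + b i * x k := by
    intro i k
    rw [Matrix.mul_apply]
    have e : ∀ l, B i l * M l k = pd l (nu i) p * hs h k l x + pd l (nu i) p * x l * x k := by
      intro l
      rw [hMe, hs_symm sh hx0 l k]
      show pd l (nu i) p * _ = _
      ring
    simp only [e, Finset.sum_add_distrib, ← Finset.sum_mul, h1]
    rfl
  have h3 : Matrix.vecMul (fun i => x i) M = fun i => x i := by
    funext k
    simp only [Matrix.vecMul, dotProduct, hMe]
    have e : ∀ l, x l * (hs h l k x + x l * x k) = x l * hs h k l x + x l * x l * x k := by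
      intro l
      rw [hs_symm sh hx0 l k]
      ring
    simp only [e, Finset.sum_add_distrib, ← Finset.sum_mul, hxx, sup_hs_x hL.sup hx0 k]
    ring
  have h4 : ∀ i, ∑ k, x k * M.adjugate k i = M.det * x i := by
    intro i
    have e1 : Matrix.vecMul (fun i => x i) M.adjugate = M.det • fun i => x i := by
      conv_lhs => rw [← h3]
      rw [Matrix.vecMul_vecMul, Matrix.mul_adjugate, Matrix.vecMul_smul, Matrix.vecMul_one]
    have := congrFun e1 i
    simpa [Matrix.vecMul, dotProduct] using this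
  have h5 : (B * M * M.adjugate).trace = M.det * B.trace := by
    rw [Matrix.mul_assoc, Matrix.mul_adjugate, Matrix.mul_smul, Matrix.mul_one,
      Matrix.trace_smul, smul_eq_mul]
  have h6 : (B * M * M.adjugate).trace = M.adjugate.trace - M.det +
      M.det * ∑ i, b i * x i := by
    unfold Matrix.trace Matrix.diag
    simp only [Matrix.mul_apply (M := B * M), h2]
    have e : ∀ i k, (pr x k i + b i * x k) * M.adjugate k i =
        kd k i * M.adjugate k i - x i * (x k * M.adjugate k i) +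
          b i * (x k * M.adjugate k i) := fun i k => by unfold pr; ring
    simp only [e, Finset.sum_add_distrib, Finset.sum_sub_distrib, ← Finset.mul_sum, h4]
    have e2 : ∀ i, ∑ k, kd k i * M.adjugate k i = M.adjugate i i := by
      intro i
      have : ∀ k, kd k i * M.adjugate k i = if k = i then M.adjugate k i else 0 := fun k => by
        unfold kd; split_ifs <;> simp
      simp only [this, Finset.sum_ite_eq', Finset.mem_univ, if_true]
    simp only [e2]
    have e3 : ∀ i, x i * (M.det * x i) = M.det * (x i * x i) := fun i => by ring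
    have e4 : ∀ i, b i * (M.det * x i) = M.det * (b i * x i) := fun i => by ring
    simp only [e3, e4, ← Finset.mul_sum, hxx, mul_one]
  have h7 : ∑ i, b i * x i = 0 := by
    have e : ∀ i, b i * x i = ∑ l, x l * (nu i p * pd l (nu i) p) := by
      intro i
      rw [hb, Finset.sum_mul, hL.bdr x hx i]
      exact Finset.sum_congr rfl fun l _ => by ring
    simp only [e]
    rw [Finset.sum_comm]
    simp only [← Finset.mul_sum, nu_dnu' hL hF0, mul_zero, Finset.sum_const_zero]
  have h8 : mcl nu p = B.trace := by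
    unfold mcl Matrix.trace Matrix.diag
    exact Finset.sum_congr rfl fun i _ => spd_eq (hcd i) i
  show mcl nu p * M.det = M.adjugate.trace - M.det
  rw [h8, mul_comm, ← h5, h6, h7]
  ring

end Vale.Agent.P366.CF
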