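import Vale.Agent.P366.H745.CH.Stmt

/-! Initial data foliated by hypersurfaces of Euclidean space: the metric is `g = δ + W ν ⊗ ν`,
where `ν` is the Euclidean unit normal of the leaves, and the tensor `K` is arbitrary.
Definitions, in every space dimension `n`. -/

open MeasureTheory Metric Filter Topology Set
open scoped ContDiff ENNReal

noncomputable section
namespace Vale.Agent.P366.CF

open Vale.Agent.P366.Convex (IsSupport ray)

variable {n : ℕ}

/-- The curvature vector `∂_ν ν` of the lines orthogonal to the leaves. -/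
def cur (nu : Fin n → Stmt.E n → ℝ) (i : Fin n) (y : Stmt.E n) : ℝ :=
  ∑ j, nu j y * Stmt.pd j (nu i) y

/-- The Euclidean mean curvature `div ν` of the leaf. -/
def mcl (nu : Fin n → Stmt.E n → ℝ) (y : Stmt.E n) : ℝ := ∑ i, Stmt.pd i (nu i) y

/-- The Euclidean second fundamental form `∂_i ν_j - ν_i (∂_ν ν)_j` of the leaf. -/
def sff (nu : Fin n → Stmt.E n → ℝ) (i j : Fin n) (y : Stmt.E n) : ℝ :=
  Stmt.pd i (nu j) y - nu i y * cur nu j y

/-- The Euclidean contraction `K(∂_i, ν)`. -/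
def col (nu : Fin n → Stmt.E n → ℝ) (K : Stmt.Field n) (i : Fin n) (y : Stmt.E n) : ℝ :=
  ∑ j, K y i j * nu j y

/-- The Euclidean contraction `K(ν, ν)`. -/
def nn (nu : Fin n → Stmt.E n → ℝ) (K : Stmt.Field n) (y : Stmt.E n) : ℝ :=
  ∑ i, col nu K i y * nu i y

/-- The trace `τ` of `K` over the leaf. -/
def trL (nu : Fin n → Stmt.E n → ℝ) (K : Stmt.Field n) (y : Stmt.E n) : ℝ :=
  ∑ i, K y i i - nn nu K y

/-- The quotient `κ = τ / div ν`. -/
def kap (nu : Fin n → Stmt.E n → ℝ) (K : Stmt.Field n) (y : Stmt.E n) : ℝ :=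
  trL nu K y / mcl nu y

/-- The quotient `T = τ / H`; the mean curvature of the leaf is `H = div ν / √(1 + W)`. -/
def rat (nu : Fin n → Stmt.E n → ℝ) (W : Stmt.E n → ℝ) (K : Stmt.Field n) (y : Stmt.E n) : ℝ :=
  kap nu K y * √(1 + W y)

/-- The covector `α = K(N, ·)` on the leaf, `N` the unit normal of the leaf for `g`. -/
def alf (nu : Fin n → Stmt.E n → ℝ) (W : Stmt.E n → ℝ) (K : Stmt.Field n) (i : Fin n)
    (y : Stmt.E n) : ℝ :=
  (col nu K i y - nn nu K y * nu i y) / √(1 + W y)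

/-- The trace-free part `σ = K - κ A` of `K` on the leaf, `A` the second fundamental form. -/
def sig (nu : Fin n → Stmt.E n → ℝ) (K : Stmt.Field n) (i j : Fin n) (y : Stmt.E n) : ℝ :=
  K y i j - col nu K i y * nu j y - col nu K j y * nu i y + nn nu K y * nu i y * nu j y -
    kap nu K y * sff nu i j y

/-- The gradient of `φ` along the leaf. -/
def grd (nu : Fin n → Stmt.E n → ℝ) (φ : Stmt.E n → ℝ) (i : Fin n) (y : Stmt.E n) : ℝ :=
  Stmt.pd i φ y - (∑ j, Stmt.pd j φ y * nu j y) * nu i y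

/-- The gradient `a` of `log √(1 + W)` along the leaf. -/
def acc (nu : Fin n → Stmt.E n → ℝ) (W : Stmt.E n → ℝ) (i : Fin n) (y : Stmt.E n) : ℝ :=
  grd nu W i y / (2 * (1 + W y))

/-- The function `V = W / (1 + W) + κ²`; the mean curvature vector of the leaf in the spacetime
has the square `(1 - V) (div ν)²`. -/
def vv (nu : Fin n → Stmt.E n → ℝ) (W : Stmt.E n → ℝ) (K : Stmt.Field n) (y : Stmt.E n) : ℝ :=
  W y / (1 + W y) + kap nu K y ^ 2

/-- The expression `|α|² + |a|² + 2 T ⟨α, a⟩ - ⟨α, ∇T⟩ + ⟨∂_ν ν, ∇V / 2 - a - T α⟩`, with the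
gradients along the leaf. -/
def quad (nu : Fin n → Stmt.E n → ℝ) (W : Stmt.E n → ℝ) (K : Stmt.Field n) (y : Stmt.E n) : ℝ :=
  ∑ i, alf nu W K i y ^ 2 + ∑ i, acc nu W i y ^ 2 +
    2 * rat nu W K y * ∑ i, alf nu W K i y * acc nu W i y -
    ∑ i, alf nu W K i y * grd nu (rat nu W K) i y +
    ∑ i, cur nu i y * (grd nu (vv nu W K) i y / 2 - acc nu W i y - rat nu W K y * alf nu W K i y)

/-- The density `μ - T J(N) + |σ|² / 2 + quad`. -/
def den (nu : Fin n → Stmt.E n → ℝ) (W : Stmt.E n → ℝ) (g K : Stmt.Field n) (y : Stmt.E n) : ℝ :=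
  Stmt.mu g K y - rat nu W K y * (∑ i, Stmt.mom g K i y * nu i y) / √(1 + W y) +
    (∑ i, ∑ j, sig nu K i j y ^ 2) / 2 + quad nu W K y

/-- The vector field `V / 2 (div ν ν + ∂_ν ν) - a - T α`. -/
def XF (nu : Fin n → Stmt.E n → ℝ) (W : Stmt.E n → ℝ) (K : Stmt.Field n) (i : Fin n)
    (y : Stmt.E n) : ℝ :=
  vv nu W K y / 2 * (mcl nu y * nu i y + cur nu i y) - acc nu W i y -
    rat nu W K y * alf nu W K i y

/-- The condition at the interior point `y`: `|τ| ≤ H` and `quad` is nonnegative; or, more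
generally, the density `den` is nonnegative. -/
def LeafAt (nu : Fin n → Stmt.E n → ℝ) (W : Stmt.E n → ℝ) (g K : Stmt.Field n) (y : Stmt.E n) :
    Prop :=
  (|trL nu K y| ≤ mcl nu y / √(1 + W y) ∧ 0 ≤ quad nu W K y) ∨ 0 ≤ den nu W g K y

/-- The exterior `D` is the outside of the strictly convex body with the support function `h`; the
unit covector field `ν` is normal to a foliation of the exterior by hypersurfaces with positive
Euclidean mean curvature, the boundary is a leaf, and the metric is `g = δ + W ν ⊗ ν`: the leaves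
have their Euclidean metric. Near infinity `r |∂_ν ν|` and `(r div ν)⁻¹` are bounded. -/
structure IsFol (h : Stmt.E n → ℝ) (nu : Fin n → Stmt.E n → ℝ) (W : Stmt.E n → ℝ)
    (D : Stmt.Exterior n) : Prop where
  sup : IsSupport h
  dom : ∀ y, D.F y < 0 ↔ ∀ x : Stmt.E n, Stmt.len x = 1 → ∑ i, x i * y i < h x
  smN : ∀ y, 0 ≤ D.F y → ∀ i, ContDiffAt ℝ ∞ (nu i) y
  smW : ∀ y, 0 ≤ D.F y → ContDiffAt ℝ ∞ W y
  unit : ∀ y, 0 ≤ D.F y → ∑ i, nu i y ^ 2 = 1
  frob : ∀ y, 0 ≤ D.F y → ∀ i j, sff nu i j y = sff nu j i y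
  met : ∀ y, 0 ≤ D.F y → ∀ i j, D.g y i j = (if i = j then 1 else 0) + W y * nu i y * nu j y
  bdr : ∀ x, Stmt.len x = 1 → ∀ i, nu i (ray h x 0) = x i
  mcp : ∀ y, 0 ≤ D.F y → 0 < mcl nu y
  inf : ∃ c R : ℝ, ∀ y, R < Stmt.len y →
    1 ≤ c * Stmt.len y * mcl nu y ∧ ∀ i, |cur nu i y| * Stmt.len y ≤ c

end Vale.Agent.P366.CF
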