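import Vale.Agent.P366.CF.Defs

/-! Foliated initial data: the condition of the case of equality. -/

open MeasureTheory Metric Filter Topology Set
open scoped ContDiff ENNReal

noncomputable section
namespace Vale.Agent.P366.CF

variable {n : ℕ}

/-- A strict form of the condition at the interior point `y`, for parallel leaves: `|τ| < H`, and `K(N, ·)` vanishes on
the leaf or `quad` is positive; or, more generally, the density `den` is positive. -/
def ParStrictAt (nu : Fin n → Stmt.E n → ℝ) (W : Stmt.E n → ℝ) (g K : Stmt.Field n) (y : Stmt.E n) :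
    Prop :=
  (|trL nu K y| < mcl nu y / √(1 + W y) ∧ ((∀ i, alf nu W K i y = 0) ∨ 0 < quad nu W K y)) ∨
  0 < den nu W g K y

/-- The leaves are the parallel surfaces of the body. -/
def Parallel (h : Stmt.E n → ℝ) (nu : Fin n → Stmt.E n → ℝ) : Prop :=
  ∀ x s, Stmt.len x = 1 → 0 ≤ s → ∀ i, nu i (Convex.ray h x s) = x i

end Vale.Agent.P366.CF
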