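import Vale.Agent.P366.CF.Defs

/-! Initial data foliated by hypersurfaces of Euclidean space: the condition of the case of
equality. -/

open MeasureTheory Metric Filter Topology Set
open scoped ContDiff ENNReal

noncomputable section
namespace Vale.Agent.P366.CF

variable {n : ℕ}

/-- The strict form of the condition at the interior point `y`: `|τ| < H`, and `quad` is positive or
`α`, `a` and `∂_ν ν` vanish; or, more generally, the density `den` is positive. -/
def RigidAt (nu : Fin n → Stmt.E n → ℝ) (W : Stmt.E n → ℝ) (g K : Stmt.Field n) (y : Stmt.E n) :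
    Prop :=
  (|trL nu K y| < mcl nu y / √(1 + W y) ∧
    (0 < quad nu W K y ∨ ∀ i, alf nu W K i y = 0 ∧ acc nu W i y = 0 ∧ cur nu i y = 0)) ∨
  0 < den nu W g K y

end Vale.Agent.P366.CF
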