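import Vale.Agent.P366.CF.RAlg
import Vale.Agent.P366.CF.Defs
import Vale.Agent.P366.H208.CL.Pos
import Vale.Agent.P366.T2.A765.SCStmt
import Vale.Agent.P366.H896.G.Far

/-! The scalar curvature of the metric `δ + W ν ⊗ ν`. -/

open MeasureTheory Metric Filter Topology Set
open scoped ContDiff ENNReal

noncomputable section
namespace Vale.Agent.P366.CF

open Vale.Agent.P366 (pd E)
open Vale.Agent.P366.H353.N (kd)
open Vale.Agent.P366.KSN.X5 (DP cdd cd_pd)
open Vale.Agent.P366.CL (spd_cd spd_eq)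
open Vale.Agent.P366.T2 (Lg Vg scal_div)

variable {n : ℕ} {h W : E n → ℝ} {nu : Fin n → E n → ℝ} {D : Stmt.Exterior n} {y z : E n}

/-- the facts at interior points -/
structure Pf (nu : Fin n → E n → ℝ) (W : E n → ℝ) (D : Stmt.Exterior n) (y : E n) : Prop where
  hF : 0 ≤ D.F y
  cn : ∀ i, ContDiffAt ℝ ∞ (nu i) y
  cW : ContDiffAt ℝ ∞ W y
  un : ∑ i, nu i y * nu i y = 1
  bn : ∀ i, ∑ j, pd i (nu j) y * nu j y = 0
  cu : ∀ j, ∑ i, nu i y * pd i (nu j) y = cur nu j y
  fr : ∀ i j, pd i (nu j) y = pd j (nu i) y + nu i y * cur nu j y - nu j y * cur nu i y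
  oW : 0 < 1 + W y
  g : ∀ i j, D.g y i j = kd i j + W y * nu i y * nu j y
  dg : ∀ k i j, Stmt.pd k (fun z => D.g z i j) y = pd k W y * nu i y * nu j y +
    W y * pd k (nu i) y * nu j y + W y * nu i y * pd k (nu j) y

lemma dp_spd {k : Fin n} {f : E n → ℝ} {d : ℝ} (h : DP k f d y) : Stmt.pd k f y = d := by
  rw [Vale.Agent.P366.Bridge.pd_eq h.1, h.2]

lemma pf_met (hL : IsFol h nu W D) (hy : 0 ≤ D.F y) (i j : Fin n) :
    D.g y i j = kd i j + W y * nu i y * nu j y := hL.met y hy i j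

lemma pf_un (hL : IsFol h nu W D) (hy : 0 ≤ D.F y) : ∑ i, nu i y * nu i y = 1 := by
  rw [← hL.unit y hy]; exact Finset.sum_congr rfl fun i _ => (sq _).symm

lemma pf_oW (hL : IsFol h nu W D) (hy : 0 ≤ D.F y) : 0 < 1 + W y := by
  have hP := D.pos y hy
  have hxx := pf_un hL hy
  have h0 : (fun i => nu i y : Fin n → ℝ) ≠ 0 := by
    intro h0
    have h1 : ∀ i, nu i y = 0 := fun i => congrFun h0 i
    simp [h1] at hxx
  have h1 := hP.dotProduct_mulVec_pos h0
  simp only [star_trivial] at h1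
  have e : (fun i => nu i y : Fin n → ℝ) ⬝ᵥ (Stmt.mat D.g y).mulVec (fun i => nu i y) =
      1 + W y := by
    unfold dotProduct Matrix.mulVec dotProduct Stmt.mat
    simp only [hL.met y hy]
    have e1 : ∀ i, nu i y * ∑ j, ((if i = j then (1 : ℝ) else 0) +
        W y * nu i y * nu j y) * nu j y = nu i y * nu i y + W y * (nu i y * nu i y) := by
      intro i
      have e2 : ∀ j, ((if i = j then (1 : ℝ) else 0) + W y * nu i y * nu j y) * nu j y =
        (if i = j then nu j y else 0) + W y * nu i y * (nu j y * nu j y) := fun j => by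
          split_ifs <;> ring
      simp only [e2, Finset.sum_add_distrib, Finset.sum_ite_eq, Finset.mem_univ, if_true,
        ← Finset.mul_sum, hxx]
      ring
    simp only [e1, Finset.sum_add_distrib, ← Finset.mul_sum, hxx, mul_one]
  rw [e] at h1
  exact h1

theorem pf_of (hL : IsFol h nu W D) (hy : 0 < D.F y) : Pf nu W D y := by
  have hev : ∀ᶠ z in 𝓝 y, 0 ≤ D.F z :=
    ((D.dom.1.continuous.continuousAt).eventually (lt_mem_nhds hy)).mono fun z hz => le_of_lt hz
  have cn := hL.smN y hy.le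
  have cW := hL.smW y hy.le
  have hcu : ∀ j, ∑ i, nu i y * pd i (nu j) y = cur nu j y := fun j =>
    Finset.sum_congr rfl fun i _ => by rw [spd_eq (cn j)]
  refine ⟨hy.le, cn, cW, pf_un hL hy.le, fun i => ?_, hcu, fun i j => ?_, pf_oW hL hy.le,
    pf_met hL hy.le, fun k i j => ?_⟩
  · have e1 : (fun z => ∑ j, nu j z * nu j z) =ᶠ[𝓝 y] fun _ => (1 : ℝ) :=
      hev.mono fun z hz => pf_un hL hz
    have e2 : DP i (fun z => ∑ j, nu j z * nu j z)
        (∑ j, (pd i (nu j) y * nu j y + nu j y * pd i (nu j) y)) y :=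
      DP.sum _ fun j => (DP.of (cdd (cn j))).mul (DP.of (cdd (cn j)))
    have e3 : pd i (fun z => ∑ j, nu j z * nu j z) y = 0 := by
      rw [Vale.Agent.P366.pd_congr e1 i]
      exact (DP.const (k := i) (y := y) (1 : ℝ)).2
    have e4 : ∑ j, (pd i (nu j) y * nu j y + nu j y * pd i (nu j) y) =
        2 * ∑ j, pd i (nu j) y * nu j y := by
      rw [Finset.mul_sum]; exact Finset.sum_congr rfl fun j _ => by ring
    rw [e2.2, e4] at e3
    linarith
  · have e1 := hL.frob y hy.le i j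
    unfold sff at e1
    rw [spd_eq (cn j), spd_eq (cn i)] at e1
    linarith
  · rw [spd_eq (D.smooth i j).1.contDiffAt]
    have e1 : (fun z => D.g z i j) =ᶠ[𝓝 y] fun z => kd i j + W z * nu i z * nu j z :=
      hev.mono fun z hz => pf_met hL hz i j
    rw [Vale.Agent.P366.pd_congr e1 k]
    have e2 : DP k (fun z => kd i j + W z * nu i z * nu j z)
        (0 + ((pd k W y * nu i y + W y * pd k (nu i) y) * nu j y +
          W y * nu i y * pd k (nu j) y)) y :=
      (DP.const (kd i j)).add (((DP.of (cdd cW)).mul (DP.of (cdd (cn i)))).mul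
        (DP.of (cdd (cn j))))
    rw [e2.2]
    ring


/-- the part of the flux field given by the metric -/
def XR (nu : Fin n → E n → ℝ) (W : E n → ℝ) (i : Fin n) (y : E n) : ℝ :=
  W y / (1 + W y) / 2 * (mcl nu y * nu i y + cur nu i y) - acc nu W i y

lemma dp_om (hW : DifferentiableAt ℝ W y) (h1 : 1 + W y ≠ 0) (k : Fin n) :
    DP k (fun z => W z / (1 + W z)) ((1 / (1 + W y)) ^ 2 * pd k W y) y := by
  have h2 : HasDerivAt (fun t : ℝ => t / (1 + t)) ((1 / (1 + W y)) ^ 2) (W y) := by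
    have h3 := (hasDerivAt_id (W y)).div ((hasDerivAt_id (W y)).const_add 1) h1
    have e : (1 * (1 + W y) - W y * 1) / (1 + W y) ^ 2 = (1 / (1 + W y)) ^ 2 := by
      field_simp
      ring
    rw [← e]
    exact h3
  have h4 := h2.comp_hasFDerivAt y hW.hasFDerivAt
  refine ⟨h4.differentiableAt, ?_⟩
  show fderiv ℝ ((fun t : ℝ => t / (1 + t)) ∘ W) y (EuclideanSpace.single k 1) = _
  rw [h4.fderiv]
  rfl

lemma ev_pos (hy : 0 < D.F y) : ∀ᶠ z in 𝓝 y, 0 < D.F z :=
  (D.dom.1.continuous.continuousAt).eventually (lt_mem_nhds hy)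

lemma cur_cd (hn : ∀ i, ContDiffAt ℝ ∞ (nu i) y) (i : Fin n) : ContDiffAt ℝ ∞ (cur nu i) y :=
  ContDiffAt.sum fun j _ => (hn j).mul (spd_cd (hn i) j)

lemma mcl_cd (hn : ∀ i, ContDiffAt ℝ ∞ (nu i) y) : ContDiffAt ℝ ∞ (mcl nu) y :=
  ContDiffAt.sum fun i _ => spd_cd (hn i) i

lemma grd_cd {φ : E n → ℝ} (hn : ∀ i, ContDiffAt ℝ ∞ (nu i) y) (hW : ContDiffAt ℝ ∞ φ y)
    (i : Fin n) : ContDiffAt ℝ ∞ (grd nu φ i) y :=
  (spd_cd hW i).sub ((ContDiffAt.sum fun j _ => (spd_cd hW j).mul (hn j)).mul (hn i))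

lemma acc_cd (hn : ∀ i, ContDiffAt ℝ ∞ (nu i) y) (hW : ContDiffAt ℝ ∞ W y) (h1 : 1 + W y ≠ 0)
    (i : Fin n) : ContDiffAt ℝ ∞ (acc nu W i) y :=
  (grd_cd hn hW i).div (contDiffAt_const.mul (contDiffAt_const.add hW))
    (mul_ne_zero two_ne_zero h1)

lemma XR_cd (hn : ∀ i, ContDiffAt ℝ ∞ (nu i) y) (hW : ContDiffAt ℝ ∞ W y) (h1 : 1 + W y ≠ 0)
    (i : Fin n) : ContDiffAt ℝ ∞ (XR nu W i) y :=
  (((hW.div (contDiffAt_const.add hW) h1).div_const 2).mul
    (((mcl_cd hn).mul (hn i)).add (cur_cd hn i))).sub (acc_cd hn hW h1 i)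

namespace Pf

lemma mcl_eq (P : Pf nu W D y) : mcl nu y = ∑ i, pd i (nu i) y :=
  Finset.sum_congr rfl fun i _ => spd_eq (P.cn i) i

lemma grd_eq (P : Pf nu W D y) (i : Fin n) :
    grd nu W i y = pd i W y - (∑ j, pd j W y * nu j y) * nu i y := by
  unfold grd
  simp only [spd_eq P.cW]

lemma up_z (P : Pf nu W D z) (i j : Fin n) : Stmt.up D.g i j z =
    kd i j - W z / (1 + W z) * nu i z * nu j z := by
  have h1 : ∑ i, nu i z ^ 2 = 1 := by
    rw [← P.un]; exact Finset.sum_congr rfl fun i _ => sq _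
  rw [Stmt.CLt.up_rank h1 P.oW fun i j => (P.g i j).trans rfl]
  rfl

end Pf

variable (hP : ∀ z, 0 < D.F z → Pf nu W D z)
include hP

lemma dup_z (hz : 0 < D.F z) (k i j : Fin n) : Stmt.pd k (Stmt.up D.g i j) z =
    -((1 / (1 + W z)) ^ 2 * pd k W z * nu i z * nu j z +
      W z / (1 + W z) * (pd k (nu i) z * nu j z + nu i z * pd k (nu j) z)) := by
  have P := hP z hz
  have h1 : DP k (fun z => kd i j - W z / (1 + W z) * nu i z * nu j z)
      (0 - (((1 / (1 + W z)) ^ 2 * pd k W z * nu i z + W z / (1 + W z) * pd k (nu i) z) *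
        nu j z + W z / (1 + W z) * nu i z * pd k (nu j) z)) z :=
    (DP.const (kd i j)).sub (((dp_om (cdd P.cW) P.oW.ne' k).mul
      (DP.of (cdd (P.cn i)))).mul (DP.of (cdd (P.cn j))))
  have h2 : Stmt.up D.g i j =ᶠ[𝓝 z] fun z => kd i j - W z / (1 + W z) * nu i z * nu j z :=
    (ev_pos hz).mono fun x hx => (hP x hx).up_z i j
  have h3 : DP k (Stmt.up D.g i j) _ z :=
    ⟨h1.1.congr_of_eventuallyEq h2, by rw [Vale.Agent.P366.pd_congr h2 k, h1.2]⟩
  rw [dp_spd h3]
  ring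

lemma Lg_z (hz : 0 < D.F z) (i : Fin n) : Lg D.g i z = 1 / (1 + W z) / 2 * pd i W z := by
  have P := hP z hz
  have h1 := P.oW.ne'
  have hun : ∑ k, nu k z * nu k z = 1 := P.un
  unfold T2.Lg
  simp only [P.up_z, P.dg i]
  rw [ctr (fun i => nu i z) (W z / (1 + W z)) fun k l => pd i W z * nu k z * nu l z +
    W z * pd i (nu k) z * nu l z + W z * nu k z * pd i (nu l) z]
  have e1 : ∑ k, (pd i W z * nu k z * nu k z +
      W z * pd i (nu k) z * nu k z + W z * nu k z * pd i (nu k) z) = pd i W z := by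
    have : ∀ k, pd i W z * nu k z * nu k z +
      W z * pd i (nu k) z * nu k z + W z * nu k z * pd i (nu k) z =
      pd i W z * (nu k z * nu k z) + 2 * W z * (pd i (nu k) z * nu k z) :=
      fun k => by ring
    simp only [this, Finset.sum_add_distrib, ← Finset.mul_sum, hun, P.bn i]
    ring
  have e2 : ∀ k, ∑ l, nu l z * (pd i W z * nu k z * nu l z +
      W z * pd i (nu k) z * nu l z + W z * nu k z * pd i (nu l) z) =
      pd i W z * nu k z + W z * pd i (nu k) z := by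
    intro k
    have : ∀ l, nu l z * (pd i W z * nu k z * nu l z +
      W z * pd i (nu k) z * nu l z + W z * nu k z * pd i (nu l) z) =
      (pd i W z * nu k z + W z * pd i (nu k) z) * (nu l z * nu l z) +
      W z * nu k z * (pd i (nu l) z * nu l z) := fun l => by ring
    simp only [this, Finset.sum_add_distrib, ← Finset.mul_sum, hun, P.bn i]
    ring
  have e3 : ∑ k, nu k z * (pd i W z * nu k z + W z * pd i (nu k) z) = pd i W z := by
    have : ∀ k, nu k z * (pd i W z * nu k z + W z * pd i (nu k) z) =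
      pd i W z * (nu k z * nu k z) + W z * (pd i (nu k) z * nu k z) :=
      fun k => by ring
    simp only [this, Finset.sum_add_distrib, ← Finset.mul_sum, hun, P.bn i]
    ring
  simp only [e1, e2, e3]
  field_simp
  ring

lemma upL_z (hz : 0 < D.F z) (k : Fin n) : ∑ j, Stmt.up D.g k j z * Lg D.g j z =
    1 / (1 + W z) / 2 * (pd k W z -
      W z / (1 + W z) * (∑ l, pd l W z * nu l z) * nu k z) := by
  simp only [(hP z hz).up_z, Lg_z hP hz]
  rw [ctr1 (fun i => nu i z) (fun j => 1 / (1 + W z) / 2 * pd j W z) (W z / (1 + W z)) k]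
  have : ∑ l, 1 / (1 + W z) / 2 * pd l W z * nu l z =
      1 / (1 + W z) / 2 * ∑ l, pd l W z * nu l z := by
    rw [Finset.mul_sum]; exact Finset.sum_congr rfl fun l _ => by ring
  rw [this]
  ring

lemma dupsum_z (hz : 0 < D.F z) (k : Fin n) : ∑ j, Stmt.pd j (Stmt.up D.g k j) z =
    -((1 / (1 + W z)) ^ 2 * (∑ l, pd l W z * nu l z) * nu k z +
      W z / (1 + W z) * (mcl nu z * nu k z + cur nu k z)) := by
  have P := hP z hz
  simp only [dup_z hP hz]
  have : ∀ j, -((1 / (1 + W z)) ^ 2 * pd j W z * nu k z * nu j z +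
      W z / (1 + W z) * (pd j (nu k) z * nu j z + nu k z * pd j (nu j) z)) =
      -((1 / (1 + W z)) ^ 2 * nu k z * (pd j W z * nu j z) +
      W z / (1 + W z) * (nu j z * pd j (nu k) z) +
      W z / (1 + W z) * nu k z * pd j (nu j) z) := fun j => by ring
  simp only [this, Finset.sum_neg_distrib, Finset.sum_add_distrib, ← Finset.mul_sum, P.cu k]
  rw [P.mcl_eq]
  ring

lemma XR_z (hz : 0 < D.F z) (k : Fin n) : 2 * XR nu W k z =
    W z / (1 + W z) * (mcl nu z * nu k z + cur nu k z) -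
      1 / (1 + W z) * (pd k W z - (∑ l, pd l W z * nu l z) * nu k z) := by
  have P := hP z hz
  have h1 := P.oW.ne'
  unfold XR acc
  rw [P.grd_eq]
  field_simp

lemma Vg_z (hz : 0 < D.F z) (k : Fin n) : Vg D.g k z =
    2 * XR nu W k z + ∑ j, Stmt.up D.g k j z * Lg D.g j z := by
  have h1 := (hP z hz).oW.ne'
  unfold T2.Vg
  rw [dupsum_z hP hz, upL_z hP hz, XR_z hP hz]
  field_simp
  ring

lemma Lg_cd (hy : 0 < D.F y) (i : Fin n) : ContDiffAt ℝ ∞ (Lg D.g i) y := by
  have P := hP y hy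
  have h1 : ContDiffAt ℝ ∞ (fun z => 1 / (1 + W z) / 2 * pd i W z) y :=
    ((contDiffAt_const.div (contDiffAt_const.add P.cW) P.oW.ne').div_const 2).mul
      (cd_pd P.cW i)
  exact h1.congr_of_eventuallyEq ((ev_pos hy).mono fun z hz => Lg_z hP hz i)

/-- **[CF-R]**: the divergence of the metric part of the flux field. -/
theorem div_XR_aux (hy : 0 < D.F y) : ∑ i, Stmt.pd i (XR nu W i) y =
    Stmt.scal D.g y / 2 + ∑ i, acc nu W i y ^ 2 -
      W y / (1 + W y) * ∑ i, cur nu i y * acc nu W i y := by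
  have P := hP y hy
  have h1 := P.oW.ne'
  have hU : IsOpen {z : E n | 0 < D.F z} := isOpen_lt continuous_const D.dom.1.continuous
  have h := scal_div (g := D.g) hU (fun i j => (D.smooth i j).1) (fun z _ i j => (D.symm z i j).1)
    (fun z hz => (D.pos z (le_of_lt hz)).det_pos.ne') hy
  have hus : ∀ i j, Stmt.up D.g i j y = Stmt.up D.g j i y := fun i j => by
    rw [P.up_z, P.up_z]
    unfold kd
    simp only [eq_comm (a := i) (b := j)]
    ring
  -- the derivative of `V`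
  have hVd : ∀ k, Stmt.pd k (Vg D.g k) y = 2 * Stmt.pd k (XR nu W k) y +
      ∑ j, (Stmt.pd k (Stmt.up D.g k j) y * Lg D.g j y +
        Stmt.up D.g k j y * Stmt.pd k (Lg D.g j) y) := by
    intro k
    have dX := cdd (XR_cd P.cn P.cW h1 k)
    have dU : ∀ j, DifferentiableAt ℝ (Stmt.up D.g k j) y := fun j =>
      cdd (KSS.upD_cd hy.le k j)
    have dL : ∀ j, DifferentiableAt ℝ (Lg D.g j) y := fun j => cdd (Lg_cd hP hy j)
    have e1 : DP k (fun z => 2 * XR nu W k z + ∑ j, Stmt.up D.g k j z * Lg D.g j z)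
        (2 * pd k (XR nu W k) y + ∑ j, (pd k (Stmt.up D.g k j) y * Lg D.g j y +
          Stmt.up D.g k j y * pd k (Lg D.g j) y)) y :=
      ((DP.of dX).cmul 2).add (DP.sum _ fun j => (DP.of (dU j)).mul (DP.of (dL j)))
    have e2 : Vg D.g k =ᶠ[𝓝 y] fun z => 2 * XR nu W k z +
        ∑ j, Stmt.up D.g k j z * Lg D.g j z := (ev_pos hy).mono fun z hz => Vg_z hP hz k
    have e3 : DP k (Vg D.g k) _ y :=
      ⟨e1.1.congr_of_eventuallyEq e2, by rw [Vale.Agent.P366.pd_congr e2 k, e1.2]⟩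
    rw [dp_spd e3, Vale.Agent.P366.Bridge.pd_eq dX]
    congr 1
    exact Finset.sum_congr rfl fun j _ => by
      rw [Vale.Agent.P366.Bridge.pd_eq (dU j), Vale.Agent.P366.Bridge.pd_eq (dL j)]
  have e1 : ∑ k, Stmt.pd k (Vg D.g k) y = 2 * ∑ k, Stmt.pd k (XR nu W k) y +
      (∑ k, ∑ j, Stmt.pd k (Stmt.up D.g k j) y * Lg D.g j y) +
      ∑ i, ∑ j, Stmt.up D.g i j y * Stmt.pd j (Lg D.g i) y := by
    simp only [hVd, Finset.sum_add_distrib, ← Finset.mul_sum]
    have : ∑ k, ∑ j, Stmt.up D.g k j y * Stmt.pd k (Lg D.g j) y =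
        ∑ i, ∑ j, Stmt.up D.g i j y * Stmt.pd j (Lg D.g i) y := by
      rw [Finset.sum_comm]
      exact Finset.sum_congr rfl fun i _ => Finset.sum_congr rfl fun j _ => by rw [hus j i]
    rw [this]
    ring
  set a : Fin n → ℝ := fun i => nu i y with ha
  set w : Fin n → ℝ := fun i => pd i W y with hw
  set e : Fin n → ℝ := fun i => cur nu i y with he
  set b : Fin n → Fin n → ℝ := fun i j => pd i (nu j) y with hb
  set A : ℝ := ∑ l, pd l W y * nu l y with hA
  set N : ℝ := ∑ l, pd l W y * pd l W y with hN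
  set B : ℝ := ∑ l, cur nu l y * pd l W y with hB
  set ρ : ℝ := 1 / (1 + W y) with hρ
  set σ : ℝ := W y / (1 + W y) with hσ
  have hρσ : ρ = 1 - σ := by rw [hρ, hσ]; field_simp; ring
  have hW : W y * (1 - σ) = σ := by rw [← hρσ, hρ, hσ]; ring
  have haa : ∑ i, a i * a i = 1 := P.un
  have hba : ∀ i, ∑ j, b i j * a j = 0 := P.bn
  have hea : ∀ j, ∑ i, a i * b i j = e j := P.cu
  have hbs : ∀ i j, b i j = b j i + a i * e j - a j * e i := P.fr
  have ee := e_a (a := a) hba hea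
  have e2 : ∑ k, ∑ j, Stmt.pd k (Stmt.up D.g k j) y * Lg D.g j y =
      -(ρ / 2 * ((ρ ^ 2 * A + σ * mcl nu y) * A + σ * B)) := by
    rw [Finset.sum_comm]
    have g1 : ∀ j, ∑ k, Stmt.pd k (Stmt.up D.g k j) y * Lg D.g j y =
        -(ρ / 2 * ((ρ ^ 2 * A + σ * mcl nu y) * (pd j W y * nu j y) +
          σ * (cur nu j y * pd j W y))) := by
      intro j
      rw [← Finset.sum_mul, Lg_z hP hy]
      have g2 : ∑ k, Stmt.pd k (Stmt.up D.g k j) y = ∑ k, Stmt.pd k (Stmt.up D.g j k) y :=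
        Finset.sum_congr rfl fun k _ => by
          rw [dup_z hP hy, dup_z hP hy]; ring
      rw [g2, dupsum_z hP hy]
      ring
    simp only [g1, ← Finset.mul_sum, Finset.sum_add_distrib, Finset.sum_neg_distrib]
    rw [← hA, ← hB]
  have e3 : ∑ l, Lg D.g l y * Vg D.g l y =
      ρ / 2 * (σ * mcl nu y * A + σ * B - ρ / 2 * N + ρ * A ^ 2 * (1 - σ / 2)) := by
    have g1 : ∀ l, Lg D.g l y * Vg D.g l y = ρ / 2 * ((σ * mcl nu y + ρ * A * (1 - σ / 2)) *
        (pd l W y * nu l y) + σ * (cur nu l y * pd l W y) -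
          ρ / 2 * (pd l W y * pd l W y)) := by
      intro l
      rw [Vg_z hP hy, XR_z hP hy, upL_z hP hy, Lg_z hP hy]
      ring
    simp only [g1, ← Finset.mul_sum, Finset.sum_sub_distrib, Finset.sum_add_distrib]
    rw [← hA, ← hN, ← hB]
    ring
  have hq1 := q1_out (W := W y) (ρ := ρ) (σ := σ) (w := w) haa hba hea
  have hq2 := q2_out (W := W y) (ρ := ρ) (σ := σ) (w := w) hea
  have hsq := sq_b hea hbs hba
  have e4 : ∑ k, ∑ l, Stmt.up D.g k l y * ∑ i, ∑ j, Stmt.pd k (Stmt.up D.g i j) y *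
      Stmt.pd i (fun y => D.g y j l) y =
      -(ρ ^ 2 * (1 - σ) * A ^ 2 + (ρ ^ 2 * W y + σ * (1 - σ)) * B +
      σ * W y * (∑ k, ∑ i, b k i * b i k) + σ * W y * (1 - σ) * ∑ i, e i * e i) := by
    rw [← hq1]
    refine Finset.sum_congr rfl fun k _ => Finset.sum_congr rfl fun l _ => ?_
    rw [P.up_z, ← q1_in haa hba hea k l]
    congr 1
    refine Finset.sum_congr rfl fun i _ => Finset.sum_congr rfl fun j _ => ?_
    rw [dup_z hP hy, P.dg]
  have e5 : ∑ k, ∑ l, Stmt.up D.g k l y * ∑ i, ∑ j, Stmt.pd k (Stmt.up D.g i j) y *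
      Stmt.pd l (fun y => D.g y i j) y =
      -(ρ ^ 2 * (N - σ * A ^ 2) + 2 * σ * W y * ((∑ k, ∑ i, b k i * b k i) -
        σ * ∑ i, e i * e i)) := by
    rw [← hq2]
    refine Finset.sum_congr rfl fun k _ => Finset.sum_congr rfl fun l _ => ?_
    rw [P.up_z, ← q2_in haa hba k l]
    congr 1
    refine Finset.sum_congr rfl fun i _ => Finset.sum_congr rfl fun j _ => ?_
    rw [dup_z hP hy, P.dg]
  have e6 : ∑ i, acc nu W i y ^ 2 = ρ ^ 2 / 4 * (N - A ^ 2) := by
    have g1 : ∀ i, acc nu W i y ^ 2 = ρ ^ 2 / 4 * (pd i W y * pd i W y -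
        2 * A * (pd i W y * nu i y) + A ^ 2 * (nu i y * nu i y)) := by
      intro i
      unfold acc
      rw [P.grd_eq, ← hA, hρ]
      field_simp
      ring
    simp only [g1, ← Finset.mul_sum, Finset.sum_sub_distrib, Finset.sum_add_distrib]
    rw [← hA, ← hN, P.un]
    ring
  have e7 : ∑ i, cur nu i y * acc nu W i y = ρ / 2 * B := by
    have g1 : ∀ i, cur nu i y * acc nu W i y = ρ / 2 * (cur nu i y * pd i W y -
        A * (cur nu i y * nu i y)) := by
      intro i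
      unfold acc
      rw [P.grd_eq, ← hA, hρ]
      field_simp
    simp only [g1, ← Finset.mul_sum, Finset.sum_sub_distrib]
    have : ∑ i, cur nu i y * nu i y = 0 := ee
    rw [← hB, this]
    ring
  have e8 : Stmt.scal D.g y = 2 * (∑ k, Stmt.pd k (XR nu W k) y) -
      ρ ^ 2 / 2 * (N - A ^ 2) + ρ * σ * B := by
    rw [h, e1, e2, e3, e4, e5, hsq, hρσ]
    linear_combination (1/2 * (1 - σ) * B + 1/2 * σ * (∑ i, e i * e i) -
      1/2 * σ * (∑ i, e i * e i)) * hW
  rw [e8, e6, e7]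
  ring

omit hP in
/-- **[F1]**: the divergence of the metric part of the flux field. -/
theorem div_XR (hL : IsFol h nu W D) (hy : 0 < D.F y) :
    ∑ i, Stmt.pd i (fun y => W y / (1 + W y) / 2 * (mcl nu y * nu i y + cur nu i y) -
      acc nu W i y) y = Stmt.scal D.g y / 2 + ∑ i, acc nu W i y ^ 2 -
        W y / (1 + W y) * ∑ i, cur nu i y * acc nu W i y :=
  div_XR_aux (fun _ hz => pf_of hL hz) hy

end Vale.Agent.P366.CF
end
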