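import Vale.Agent.P366.CF.Bd
import Vale.Agent.P366.CF.R

/-! Foliated initial data: the divergence of the flux field. -/

open MeasureTheory Metric Filter Topology Set
open scoped ContDiff ENNReal

noncomputable section
namespace Vale.Agent.P366.CF

open Vale.Agent.P366 (pd E flux)
open Vale.Agent.P366.KSN.X5 (DP cdd cd_pd)

variable {n : ℕ} {h : E n → ℝ} {nu : Fin n → E n → ℝ} {W : E n → ℝ} {D : Stmt.Exterior n}
  {x y z : E n} {s : ℝ}

/-- the gradient of `V` along the leaf -/
lemma grd_vv (hL : IsFol h nu W D) (hy : 0 ≤ D.F y) (i : Fin n) :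
    grd nu (vv nu W D.K) i y / 2 = kap nu D.K y * grd nu (kap nu D.K) i y +
      acc nu W i y / (1 + W y) := by
  have h1 := one_W_pos hL hy
  have hk : ContDiffAt ℝ ∞ (kap nu D.K) y := kap_cd (hL.smN y hy) (hL.mcp y hy).ne'
  have hW := hL.smW y hy
  have e1 : ∀ j, Stmt.pd j (vv nu W D.K) y = (1 / (1 + W y)) ^ 2 * Stmt.pd j W y +
      2 * kap nu D.K y * Stmt.pd j (kap nu D.K) y := by
    intro j
    have h2 : DP j (fun z => W z / (1 + W z) + kap nu D.K z * kap nu D.K z)
        ((1 / (1 + W y)) ^ 2 * pd j W y + (pd j (kap nu D.K) y * kap nu D.K y +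
          kap nu D.K y * pd j (kap nu D.K) y)) y :=
      (dp_om (cdd hW) h1.ne' j).add ((DP.of (cdd hk)).mul (DP.of (cdd hk)))
    have h3 : vv nu W D.K = fun z => W z / (1 + W z) + kap nu D.K z * kap nu D.K z := by
      funext z
      unfold vv
      ring
    rw [h3, dp_spd h2, spd_eq hW, spd_eq hk]
    ring
  have e2 : ∑ j, Stmt.pd j (vv nu W D.K) y * nu j y =
      (1 / (1 + W y)) ^ 2 * ∑ j, Stmt.pd j W y * nu j y +
        2 * kap nu D.K y * ∑ j, Stmt.pd j (kap nu D.K) y * nu j y := by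
    rw [Finset.mul_sum, Finset.mul_sum, ← Finset.sum_add_distrib]
    exact Finset.sum_congr rfl fun j _ => by rw [e1]; ring
  unfold acc grd
  rw [e1, e2]
  field_simp
  ring

/-- The divergence of the flux field, from the divergence of its part given by `K`. -/
theorem div_XF_of (hL : IsFol h nu W D) (hy : 0 < D.F y)
    (hK : ∑ i, Stmt.pd i (fun y => kap nu D.K y ^ 2 / 2 * (mcl nu y * nu i y + cur nu i y) -
      rat nu W D.K y * alf nu W D.K i y) y = Stmt.mu D.g D.K y - Stmt.scal D.g y / 2 -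
        rat nu W D.K y * (∑ i, Stmt.mom D.g D.K i y * nu i y) / √(1 + W y) +
        (∑ i, ∑ j, sig nu D.K i j y ^ 2) / 2 + ∑ i, alf nu W D.K i y ^ 2 +
        2 * rat nu W D.K y * ∑ i, alf nu W D.K i y * acc nu W i y -
        ∑ i, alf nu W D.K i y * grd nu (rat nu W D.K) i y +
        kap nu D.K y * ∑ i, cur nu i y * grd nu (kap nu D.K) i y -
        rat nu W D.K y * ∑ i, cur nu i y * alf nu W D.K i y) :
    ∑ i, pd i (XF nu W D.K i) y = den nu W D.g D.K y := by
  have hR := div_XR hL hy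
  have hnu := hL.smN y hy.le
  have hW := hL.smW y hy.le
  have h1 := one_W_pos hL hy.le
  have h0 := (hL.mcp y hy.le).ne'
  have hk : ContDiffAt ℝ ∞ (kap nu D.K) y := kap_cd hnu h0
  have hcR : ∀ i, ContDiffAt ℝ ∞ (fun y => W y / (1 + W y) / 2 * (mcl nu y * nu i y + cur nu i y) -
      acc nu W i y) y := fun i =>
    (((hW.div (contDiffAt_const.add hW) h1.ne').div_const 2).mul
      (((mcl_cdB hnu).mul (hnu i)).add (cur_cdB hnu i))).sub (acc_cdB hnu hW h1.ne' i)
  have hcK : ∀ i, ContDiffAt ℝ ∞ (fun y => kap nu D.K y ^ 2 / 2 * (mcl nu y * nu i y +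
      cur nu i y) - rat nu W D.K y * alf nu W D.K i y) y := fun i =>
    (((hk.pow 2).div_const 2).mul (((mcl_cdB hnu).mul (hnu i)).add (cur_cdB hnu i))).sub
      ((rat_cd hnu hW h1.ne' h0).mul (alf_cd hnu hW h1 i))
  have e : ∀ i, pd i (XF nu W D.K i) y =
      Stmt.pd i (fun y => W y / (1 + W y) / 2 * (mcl nu y * nu i y + cur nu i y) -
        acc nu W i y) y +
      Stmt.pd i (fun y => kap nu D.K y ^ 2 / 2 * (mcl nu y * nu i y + cur nu i y) -
        rat nu W D.K y * alf nu W D.K i y) y := by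
    intro i
    have h2 := (DP.of (k := i) (cdd (hcR i))).add (DP.of (k := i) (cdd (hcK i)))
    have h3 : XF nu W D.K i = fun z => (W z / (1 + W z) / 2 * (mcl nu z * nu i z + cur nu i z) -
        acc nu W i z) + (kap nu D.K z ^ 2 / 2 * (mcl nu z * nu i z + cur nu i z) -
          rat nu W D.K z * alf nu W D.K i z) := by
      funext z
      unfold XF vv
      ring
    rw [h3, h2.2, spd_eq (hcR i), spd_eq (hcK i)]
  simp only [e, Finset.sum_add_distrib]
  rw [hR, hK]
  have e2 : ∑ i, cur nu i y * (grd nu (vv nu W D.K) i y / 2 - acc nu W i y -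
      rat nu W D.K y * alf nu W D.K i y) =
      kap nu D.K y * ∑ i, cur nu i y * grd nu (kap nu D.K) i y -
        W y / (1 + W y) * ∑ i, cur nu i y * acc nu W i y -
        rat nu W D.K y * ∑ i, cur nu i y * alf nu W D.K i y := by
    rw [Finset.mul_sum, Finset.mul_sum, Finset.mul_sum, ← Finset.sum_sub_distrib,
      ← Finset.sum_sub_distrib]
    refine Finset.sum_congr rfl fun i _ => ?_
    rw [grd_vv hL hy.le]
    field_simp
    ring
  unfold den quad
  rw [e2]
  ring

end Vale.Agent.P366.CF
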