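import Vale.Agent.P366.CF.R

/-! Foliated data: the flux of the flux field at infinity. -/

open MeasureTheory Metric Filter Topology Set
open scoped ContDiff ENNReal

noncomputable section
namespace Vale.Agent.P366.CF

open Vale.Agent.P366 (pd E flux)
open Vale.Agent.P366.H353.N (kd SI om)
open Vale.Agent.P366.KSN (BO BO_th)
open Vale.Agent.P366.KSN.X5 (DP cdd cd_pd)
open Vale.Agent.P366.CL (spd_cd spd_eq)
open Vale.Agent.P366.H474.L (Ef Ef_cont)
open Vale.Agent.P366.H474.W (flux_congr flux_sub flux_neg flux_sphInt)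

variable {n : ℕ} {h W : E n → ℝ} {nu : Fin n → E n → ℝ} {D : Stmt.Exterior n} {y z : E n}

namespace Fx

lemma col_cd (hn : ∀ i, ContDiffAt ℝ ∞ (nu i) y) (i : Fin n) :
    ContDiffAt ℝ ∞ (col nu D.K i) y :=
  ContDiffAt.sum fun j _ => ((D.smooth i j).2.contDiffAt).mul (hn j)

lemma nn_cd (hn : ∀ i, ContDiffAt ℝ ∞ (nu i) y) : ContDiffAt ℝ ∞ (nn nu D.K) y :=
  ContDiffAt.sum fun i _ => (col_cd hn i).mul (hn i)

lemma trL_cd (hn : ∀ i, ContDiffAt ℝ ∞ (nu i) y) : ContDiffAt ℝ ∞ (trL nu D.K) y :=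
  (ContDiffAt.sum fun i _ => (D.smooth i i).2.contDiffAt).sub (nn_cd hn)

lemma kap_cd (hn : ∀ i, ContDiffAt ℝ ∞ (nu i) y) (h0 : mcl nu y ≠ 0) :
    ContDiffAt ℝ ∞ (kap nu D.K) y := (trL_cd hn).div (mcl_cd hn) h0

lemma sq_cd (hW : ContDiffAt ℝ ∞ W y) (h1 : 1 + W y ≠ 0) :
    ContDiffAt ℝ ∞ (fun z => √(1 + W z)) y := (contDiffAt_const.add hW).sqrt h1

lemma rat_cd (hn : ∀ i, ContDiffAt ℝ ∞ (nu i) y) (hW : ContDiffAt ℝ ∞ W y) (h1 : 1 + W y ≠ 0)
    (h0 : mcl nu y ≠ 0) : ContDiffAt ℝ ∞ (rat nu W D.K) y := (kap_cd hn h0).mul (sq_cd hW h1)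

lemma alf_cd (hn : ∀ i, ContDiffAt ℝ ∞ (nu i) y) (hW : ContDiffAt ℝ ∞ W y) (h1 : 0 < 1 + W y)
    (i : Fin n) : ContDiffAt ℝ ∞ (alf nu W D.K i) y :=
  ((col_cd hn i).sub ((nn_cd hn).mul (hn i))).div (sq_cd hW h1.ne') (Real.sqrt_pos.2 h1).ne'

lemma vv_cd (hn : ∀ i, ContDiffAt ℝ ∞ (nu i) y) (hW : ContDiffAt ℝ ∞ W y) (h1 : 1 + W y ≠ 0)
    (h0 : mcl nu y ≠ 0) : ContDiffAt ℝ ∞ (vv nu W D.K) y :=
  (hW.div (contDiffAt_const.add hW) h1).add ((kap_cd hn h0).pow 2)

/-- the flux field is smooth -/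
lemma XF_cd (hn : ∀ i, ContDiffAt ℝ ∞ (nu i) y) (hW : ContDiffAt ℝ ∞ W y) (h1 : 0 < 1 + W y)
    (h0 : mcl nu y ≠ 0) (i : Fin n) : ContDiffAt ℝ ∞ (XF nu W D.K i) y :=
  ((((vv_cd hn hW h1.ne' h0).div_const 2).mul (((mcl_cd hn).mul (hn i)).add (cur_cd hn i))).sub
    (acc_cd hn hW h1.ne' i)).sub ((rat_cd hn hW h1.ne' h0).mul (alf_cd hn hW h1 i))

end Fx

namespace Pf

variable (P : Pf nu W D y)
include P

theorem sum_dg (i : Fin n) : ∑ j, Stmt.pd j (fun z => D.g z i j) y =
    (∑ j, pd j W y * nu j y) * nu i y + W y * (mcl nu y * nu i y + cur nu i y) := by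
  have e : ∀ j, Stmt.pd j (fun z => D.g z i j) y = pd j W y * nu j y * nu i y +
      W y * (nu j y * pd j (nu i) y) + W y * nu i y * pd j (nu j) y := fun j => by
    rw [P.dg j i j]; ring
  simp only [e, Finset.sum_add_distrib, ← Finset.sum_mul, ← Finset.mul_sum, P.cu i]
  rw [P.mcl_eq]
  ring

theorem sum_dg' (i : Fin n) : ∑ j, Stmt.pd i (fun z => D.g z j j) y = pd i W y := by
  have e : ∀ j, Stmt.pd i (fun z => D.g z j j) y = pd i W y * (nu j y * nu j y) +
      2 * W y * (pd i (nu j) y * nu j y) := fun j => by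
    rw [P.dg i j j]; ring
  simp only [e, Finset.sum_add_distrib, ← Finset.mul_sum, P.bn i, P.un, mul_zero, mul_one,
    add_zero]

theorem W_eq : W y = ∑ i, (D.g y i i - if i = i then 1 else 0) := by
  have e : ∀ i, (D.g y i i - if i = i then 1 else 0) = W y * (nu i y * nu i y) := fun i => by
    rw [P.g i i]
    unfold kd
    ring
  rw [Finset.sum_congr rfl fun i _ => e i, ← Finset.mul_sum, P.un, mul_one]

theorem Ef_eq (i : Fin n) : Ef D i y =
    (W y * (mcl nu y * nu i y + cur nu i y) - grd nu W i y) / 2 := by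
  unfold Ef
  rw [Finset.sum_sub_distrib, P.sum_dg, P.sum_dg', P.grd_eq]
  ring

theorem XF_sub (i : Fin n) : XF nu W D.K i y - Ef D i y =
    kap nu D.K y * kap nu D.K y * (mcl nu y * nu i y + cur nu i y) / 2 -
      W y * (W y * (mcl nu y * nu i y + cur nu i y)) * (1 / (1 + W y)) / 2 +
      W y * grd nu W i y * (1 / (1 + W y)) / 2 -
      kap nu D.K y * (col nu D.K i y - nn nu D.K y * nu i y) := by
  have h1 := P.oW.ne'
  have h2 : √(1 + W y) ≠ 0 := (Real.sqrt_pos.2 P.oW).ne'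
  have e : rat nu W D.K y * alf nu W D.K i y =
      kap nu D.K y * (col nu D.K i y - nn nu D.K y * nu i y) := by
    unfold rat alf
    field_simp
  rw [P.Ef_eq]
  unfold XF vv acc
  rw [e]
  field_simp
  ring

end Pf

/-- **[F4]**: the flux at infinity is the energy -/
theorem flux_XF [hn : Fact (3 ≤ n)] (hL : IsFol h nu W D) (hAF : D.IsAF) {m : ℝ}
    (hm : D.IsEnergy m) :
    Tendsto (flux (XF nu W D.K)) atTop (𝓝 (((n : ℝ) - 1) * om n * m)) := by
  obtain ⟨q, hq, af⟩ := hAF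
  obtain ⟨R0, hR0⟩ := D.dom.2.2.2
  obtain ⟨c, R1, hinf⟩ := hL.inf
  have h3 : (3 : ℝ) ≤ n := by exact_mod_cast hn.out
  have i0 : Fin n := ⟨0, by have := hn.out; omega⟩
  have hq0 : 0 < q := by linarith
  have hPt : ∀ y : E n, R0 < ‖y‖ → Pf nu W D y := fun y hy => pf_of hL (hR0 y hy)
  have hmc : ∀ y : E n, R0 < ‖y‖ → 0 < mcl nu y := fun y hy => hL.mcp y (hR0 y hy).le
  -- the conditions at infinity
  have binv : BO (-1) fun y => 1 / mcl nu y := by
    refine ⟨|c|, max 1 (max R0 R1), abs_nonneg _, le_max_left _ _, fun y hy => ?_⟩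
    have hy0 : R0 < ‖y‖ := ((le_max_left _ _).trans (le_max_right _ _)).trans_lt hy
    have hy1 : R1 < ‖y‖ := ((le_max_right _ _).trans (le_max_right _ _)).trans_lt hy
    have hm0 := hmc y hy0
    rw [neg_neg, Real.rpow_one, abs_of_pos (one_div_pos.2 hm0), div_le_iff₀ hm0]
    have h1 := (hinf y hy1).1
    have h2 : c * Stmt.len y ≤ |c| * ‖y‖ :=
      mul_le_mul_of_nonneg_right (le_abs_self c) (norm_nonneg _)
    exact h1.trans (mul_le_mul_of_nonneg_right h2 hm0.le)
  have bcur : ∀ i, BO 1 (cur nu i) := by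
    intro i
    refine ⟨|c|, max 1 R1, abs_nonneg _, le_max_left _ _, fun y hy => ?_⟩
    have hy0 : 0 < ‖y‖ := one_pos.trans ((le_max_left _ _).trans_lt hy)
    have h1 := (hinf y ((le_max_right _ _).trans_lt hy)).2 i
    rw [Real.rpow_neg_one, ← div_eq_mul_inv, le_div_iff₀ hy0]
    exact h1.trans (le_abs_self c)
  have bW : BO q W := (BO.sum Finset.univ fun i =>
    BO.of_bigO (af i i i0 i0).1).congr (R := R0) fun y hy => (hPt y hy).W_eq
  have bdW : ∀ k, BO (q + 1) (pd k W) := fun k => (BO.sum Finset.univ fun i =>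
    BO.of_bigO (af i i k i0).2.1).congr (R := R0) fun y hy => ((hPt y hy).sum_dg' k).symm
  have bl : ∀ i, BO 0 (nu i) := by
    intro i
    refine ⟨1, max 1 R0, zero_le_one, le_max_left _ _, fun y hy => ?_⟩
    have P := hPt y ((le_max_right _ _).trans_lt hy)
    rw [neg_zero, Real.rpow_zero, mul_one]
    have h1 : nu i y * nu i y ≤ ∑ j, nu j y * nu j y :=
      Finset.single_le_sum (f := fun j => nu j y * nu j y)
        (fun j _ => mul_self_nonneg _) (Finset.mem_univ i)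
    rw [P.un] at h1
    exact abs_le.2 ⟨by nlinarith, by nlinarith⟩
  have bK : ∀ i j, BO (q + 1) fun y => D.K y i j := fun i j => BO.of_bigO (af i j i0 i0).2.2.2.1
  have bcol : ∀ i, BO (q + 1) (col nu D.K i) := fun i =>
    BO.sum Finset.univ fun j => (bK i j).mulb (bl j)
  have bnn : BO (q + 1) (nn nu D.K) :=
    BO.sum Finset.univ fun i => (bcol i).mulb (bl i)
  have btr : BO (q + 1) (trL nu D.K) := (BO.sum Finset.univ fun i => bK i i).sub bnn
  have bkap : BO q (kap nu D.K) := by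
    have h := btr.mul binv
    rw [show q + 1 + -1 = q by ring] at h
    refine h.congr (R := R0) fun y hy => ?_
    unfold kap
    ring
  have bgrd : ∀ i, BO (q + 1) (grd nu W i) := fun i =>
    ((bdW i).sub ((BO.sum Finset.univ fun j => (bdW j).mulb (bl j)).mulb (bl i))).congr (R := R0)
      fun y hy => (hPt y hy).grd_eq i
  have bEf : ∀ i, BO (q + 1) (Ef D i) := fun i => by
    have : BO (q + 1) fun y => (∑ j, (Stmt.pd j (fun y => D.g y i j) y -
        Stmt.pd i (fun y => D.g y j j) y)) / 2 :=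
      (BO.sum Finset.univ fun j => (BO.of_bigO (af i j j i0).2.1).sub
        (BO.of_bigO (af j j i i0).2.1)).div_const 2
    exact this
  have bY : ∀ i, BO (q + 1) fun y => W y * (mcl nu y * nu i y + cur nu i y) := fun i =>
    (((bEf i).add (bEf i)).add (bgrd i)).congr (R := R0) fun y hy => by
      rw [(hPt y hy).Ef_eq]; ring
  have binvW : BO 0 fun y => 1 / (1 + W y) := KSN.BO.inv_one_add hq0 bW
  have bX : ∀ i, BO (2 * q + 1) fun y => XF nu W D.K i y - Ef D i y := by
    intro i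
    have t1 : BO (2 * q + 1) fun y => kap nu D.K y * kap nu D.K y *
        (mcl nu y * nu i y + cur nu i y) / 2 := by
      have a1 := (bkap.mul btr).mulb (bl i)
      have a2 := (bkap.mul bkap).mul (bcur i)
      rw [show q + (q + 1) = 2 * q + 1 by ring] at a1
      rw [show q + q + 1 = 2 * q + 1 by ring] at a2
      refine ((a1.add a2).div_const 2).congr (R := R0) fun y hy => ?_
      have := (hmc y hy).ne'
      have e : trL nu D.K y = kap nu D.K y * mcl nu y := by
        unfold kap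
        field_simp
      rw [e]
      ring
    have t2 : BO (2 * q + 1) fun y => W y * (W y *
        (mcl nu y * nu i y + cur nu i y)) * (1 / (1 + W y)) / 2 := by
      have := ((bW.mul (bY i)).mulb binvW).div_const 2
      rwa [show q + (q + 1) = 2 * q + 1 by ring] at this
    have t3 : BO (2 * q + 1) fun y => W y * grd nu W i y * (1 / (1 + W y)) / 2 := by
      have := ((bW.mul (bgrd i)).mulb binvW).div_const 2
      rwa [show q + (q + 1) = 2 * q + 1 by ring] at this
    have t4 : BO (2 * q + 1) fun y => kap nu D.K y *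
        (col nu D.K i y - nn nu D.K y * nu i y) := by
      have := bkap.mul ((bcol i).sub (bnn.mulb (bl i)))
      rwa [show q + (q + 1) = 2 * q + 1 by ring] at this
    exact (((t1.sub t2).add t3).sub t4).congr (R := R0) fun y hy => (hPt y hy).XF_sub i
  have hq2 : (n : ℝ) - 1 < 2 * q + 1 := by linarith only [hq]
  have hE : BO (2 * q + 1) fun y => ∑ i, (XF nu W D.K i y - Ef D i y) * (y i / ‖y‖) :=
    BO.sum _ fun i => (bX i).mulb (BO_th i)
  have g1 := Tendsto.const_mul (((n : ℝ) - 1) * om n) hm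
  have g2 := (hE.tendsto hq2).add g1
  rw [zero_add] at g2
  refine g2.congr' ?_
  filter_upwards [eventually_gt_atTop R0, eventually_gt_atTop 0] with r hr hr0
  have cX : ∀ i (y : E n), ‖y‖ = r → ContinuousAt (XF nu W D.K i) y := fun i y hy => by
    have P := hPt y (by rw [hy]; exact hr)
    exact (Fx.XF_cd P.cn P.cW P.oW (hmc y (by rw [hy]; exact hr)).ne' i).continuousAt
  have e1 : r ^ (n - 1) * SI (fun θ => (fun y : E n => ∑ i, (XF nu W D.K i y - Ef D i y) *
      (y i / ‖y‖)) (r • θ)) = flux (fun i y => XF nu W D.K i y - Ef D i y) r := rfl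
  rw [e1, ← KSN.X5.flx_eq, ← flux_sphInt, flux_sub (W := XF nu W D.K) (W' := Ef D) hr0 cX
    (fun i y _ => (Ef_cont D i).continuousAt)]
  have e2 : flux (fun i x => (∑ j, (Stmt.pd j (fun y => D.g y i j) x -
      Stmt.pd i (fun y => D.g y j j) x)) / 2) r = flux (Ef D) r := rfl
  rw [e2]
  ring

end Vale.Agent.P366.CF
end
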