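import Vale.Agent.P366.CF.Gen
import Vale.Agent.P366.CF.Div
import Vale.Agent.P366.CF.Flux
import Vale.Agent.P366.H208.CF.Kpart
import Vale.Agent.P366.H353.CF.Bdr

/-! Data foliated by hypersurfaces of Euclidean space: the inequality. -/

open MeasureTheory Metric Filter Topology Set
open scoped ContDiff ENNReal

noncomputable section
namespace Vale.Agent.P366.CF

open Vale.Agent.P366 (pd E flux)
open Vale.Agent.P366.H353.N
open Vale.Agent.P366.Kerr (NullCone IsCut)
open Vale.Agent.P366.Convex (IsSupport ray)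
open Vale.Agent.P366.CH (supC bp)

variable {n : ℕ} {h : E n → ℝ} {nu : Fin n → E n → ℝ} {W : E n → ℝ} {D D' : Stmt.Exterior n}
  {x y : E n}

/-- The divergence of the flux field is the density. -/
theorem div_XF [Fact (3 ≤ n)] (hL : IsFol h nu W D) (hy : 0 < D.F y) :
    ∑ i, pd i (XF nu W D.K i) y = den nu W D.g D.K y := div_XF_of hL hy (div_XK hL hy)

/-- The flux through the boundary. -/
theorem bdr_half [Fact (3 ≤ n)] (hL : IsFol h nu W D) (hT : D.Trapped) (hx : ‖x‖ = 1) :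
    mcl nu (ray h x 0) / 2 ≤ ∑ i, XF nu W D.K i (ray h x 0) * x i := by
  have hB := hL.toFb
  have h0 : 0 ≤ D.F (ray h x 0) := (F_ray hL hx).ge
  have h1 := hB.XF_nor h0
  have h2 := hB.one_le_vv hT () hx
  rw [CH.bp_sup hL.sup hx] at h2
  simp only [hL.bdr x hx] at h1
  rw [h1]
  have h3 := hL.mcp _ h0
  nlinarith

/-- The Penrose inequality for data foliated by hypersurfaces of Euclidean space. -/
theorem ineq_CF (hn : 3 ≤ n) (hO : IsCut D' D) (hL : IsFol h nu W D') (hD : D'.DEC)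
    (hT : D'.Trapped) (hle : ∀ y, 0 < D'.F y → LeafAt nu W D'.g D'.K y) (hAF : D.IsAF) {m : ℝ}
    (hm : D.IsEnergy m) :
    D.Amin ≤ D.area D'.F ∧ D.area D'.F ≠ ⊤ ∧ 0 < m ∧
      (D.Amin.toReal / Stmt.omega n) ^ (((n : ℝ) - 2) / ((n : ℝ) - 1)) / 2 ≤
        ((D.area D'.F).toReal / Stmt.omega n) ^ (((n : ℝ) - 2) / ((n : ℝ) - 1)) / 2 ∧
      ((D.area D'.F).toReal / Stmt.omega n) ^ (((n : ℝ) - 2) / ((n : ℝ) - 1)) / 2 ≤ m := by
  have : Fact (3 ≤ n) := ⟨hn⟩
  exact main_CF hL hO (flux_XF hL (KSR.cut_AF hO hAF) (KSR.cut_energy hO hm))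
    (fun x hx => bdr_half hL hT hx)
    (fun y hy => by rw [div_XF hL hy]; exact den_of hL hD hy.le (hle y hy))

end Vale.Agent.P366.CF
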