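import Vale.Agent.P366.CF.Flux
import Vale.Agent.P366.H222.L.Asm

/-! Foliated data: the momentum flux of a vector field `Z` at infinity. -/

open MeasureTheory Metric Filter Topology Set
open scoped ContDiff ENNReal

noncomputable section
namespace Vale.Agent.P366.CF

open Vale.Agent.P366 (pd E flux)
open Vale.Agent.P366.H353.N (kd SI om)
open Vale.Agent.P366.KSN (BO BO_th)
open Vale.Agent.P366.KSN.X5 (DP cdd cd_pd)
open Vale.Agent.P366.CL (spd_cd spd_eq)
open Vale.Agent.P366.H474.W (flux_congr flux_sub flux_neg flux_sphInt)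

variable {n : ℕ} {h W : E n → ℝ} {nu : Fin n → E n → ℝ} {D : Stmt.Exterior n} {y z : E n}

namespace Fx

lemma tr_z (P : Pf nu W D y) : Stmt.tr D.g D.K y =
    ∑ i, D.K y i i - W y / (1 + W y) * nn nu D.K y := by
  unfold Stmt.tr
  simp only [P.up_z]
  rw [ctr (fun i => nu i y) (W y / (1 + W y)) fun i j => D.K y i j]
  congr 2
  unfold nn col
  refine Finset.sum_congr rfl fun i _ => ?_
  rw [mul_comm (nu i y)]
  congr 1
  exact Finset.sum_congr rfl fun j _ => mul_comm _ _

lemma up_vec (P : Pf nu W D y) (v : Fin n → ℝ) (k : Fin n) : ∑ l, Stmt.up D.g k l y * v l =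
    v k - W y / (1 + W y) * (∑ l, v l * nu l y) * nu k y := by
  simp only [P.up_z]
  exact ctr1 (fun i => nu i y) v (W y / (1 + W y)) k

lemma BO_sqrt {q : ℝ} {R : ℝ} (hP : ∀ y : E n, R < ‖y‖ → 0 < 1 + W y) (bW : BO q W) :
    BO q fun y => √(1 + W y) - 1 := by
  refine bW.le (R := R) fun y hy => ?_
  have h0 := hP y hy
  have h1 : 0 ≤ √(1 + W y) := Real.sqrt_nonneg _
  have h2 := Real.sq_sqrt h0.le
  have h3 : W y = (√(1 + W y) - 1) * (√(1 + W y) + 1) := by nlinarith
  conv_rhs => rw [h3]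
  rw [abs_mul]
  have h4 : 1 ≤ |√(1 + W y) + 1| := by rw [abs_of_nonneg (by linarith)]; linarith
  exact le_mul_of_one_le_right (abs_nonneg _) h4

end Fx

/-- **[Z2]**: the flux of `√(1 + W) π(Z)` at infinity -/
theorem flux_QZ_aux [hn : Fact (3 ≤ n)] (hL : IsFol h nu W D) (hAF : D.IsAF) {P : Fin n → ℝ}
    (hMom : D.IsMomentum P) {Z : Fin n → E n → ℝ} {z : Fin n → ℝ} (hZ : ∀ i, Stmt.Smooth (Z i))
    {a : ℝ} (ha : (n : ℝ) / 2 - 1 < a) (hZa : ∀ i, Stmt.BigO a fun x => Z i x - z i) :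
    Tendsto (flux fun i y => √(1 + W y) * ∑ k, Stmt.up D.g i k y *
      ∑ j, Stmt.momT D.g D.K y k j * Z j y) atTop (𝓝 (((n : ℝ) - 1) * om n * ∑ j, z j * P j)) := by
  obtain ⟨q, hq, af⟩ := hAF
  obtain ⟨R0, hR0⟩ := D.dom.2.2.2
  have h3 : (3 : ℝ) ≤ n := by exact_mod_cast hn.out
  have i0 : Fin n := ⟨0, by have := hn.out; omega⟩
  have hq0 : 0 < q := by linarith
  have hPt : ∀ y : E n, R0 < ‖y‖ → Pf nu W D y := fun y hy => pf_of hL (hR0 y hy)
  have bW : BO q W := (BO.sum Finset.univ fun i =>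
    BO.of_bigO (af i i i0 i0).1).congr (R := R0) fun y hy => (hPt y hy).W_eq
  have bl : ∀ i, BO 0 (nu i) := by
    intro i
    refine ⟨1, max 1 R0, zero_le_one, le_max_left _ _, fun y hy => ?_⟩
    have P := hPt y ((le_max_right _ _).trans_lt hy)
    rw [neg_zero, Real.rpow_zero, mul_one]
    have h1 : nu i y * nu i y ≤ ∑ j, nu j y * nu j y :=
      Finset.single_le_sum (f := fun j => nu j y * nu j y)
        (fun j _ => mul_self_nonneg _) (Finset.mem_univ i)
    rw [P.un] at h1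
    exact abs_le.2 ⟨by nlinarith, by nlinarith⟩
  have bW0 : BO 0 W := bW.mono hq0.le
  have bK : ∀ i j, BO (q + 1) fun y => D.K y i j := fun i j => BO.of_bigO (af i j i0 i0).2.2.2.1
  have bcol : ∀ i, BO (q + 1) (col nu D.K i) := fun i =>
    BO.sum Finset.univ fun j => (bK i j).mulb (bl j)
  have bnn : BO (q + 1) (nn nu D.K) :=
    BO.sum Finset.univ fun i => (bcol i).mulb (bl i)
  have binvW : BO 0 fun y => 1 / (1 + W y) := KSN.BO.inv_one_add hq0 bW
  have bσ : BO q fun y => W y / (1 + W y) := (bW.mulb binvW).congr (R := 0) fun y _ => by ring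
  have bσ0 : BO 0 fun y => W y / (1 + W y) := bσ.mono hq0.le
  have btr : BO (q + 1) (Stmt.tr D.g D.K) :=
    ((BO.sum Finset.univ fun i => bK i i).sub (bσ0.bmul bnn)).congr (R := R0)
      fun y hy => Fx.tr_z (hPt y hy)
  have bg : ∀ i j, BO 0 fun y => D.g y i j := fun i j =>
    ((BO.const (kd i j)).add ((bW0.mulb (bl i)).mulb (bl j))).congr (R := R0)
      fun y hy => (hPt y hy).g i j
  have bM : ∀ i j, BO (q + 1) fun y => Stmt.momT D.g D.K y i j := fun i j =>
    (bK i j).sub (btr.mulb (bg i j))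
  have bZd : ∀ j, BO a fun y => Z j y - z j := fun j => BO.of_bigO (hZa j)
  have ha0 : 0 < a := by linarith
  have bZ : ∀ j, BO 0 (Z j) := fun j =>
    (((bZd j).mono ha0.le).add (BO.const (z j))).congr (R := 0) fun y _ => by ring
  -- the vector `π(Z)`
  obtain ⟨M, hM⟩ : ∃ M : Fin n → E n → ℝ, M = fun k y => ∑ j, Stmt.momT D.g D.K y k j * Z j y :=
    ⟨_, rfl⟩
  have bMM : ∀ k, BO (q + 1) (M k) := fun k => by
    rw [hM]; exact BO.sum Finset.univ fun j => (bM k j).mulb (bZ j)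
  have bMn : BO (q + 1) fun y => ∑ l, M l y * nu l y :=
    BO.sum Finset.univ fun l => (bMM l).mulb (bl l)
  have bs : BO q fun y => √(1 + W y) - 1 := Fx.BO_sqrt (fun y hy => (hPt y hy).oW) bW
  obtain ⟨p, hp⟩ : ∃ p, p = min q a := ⟨_, rfl⟩
  have hp1 : p ≤ q := by rw [hp]; exact min_le_left _ _
  have hp2 : p ≤ a := by rw [hp]; exact min_le_right _ _
  have hp3 : (n : ℝ) / 2 - 1 < p := by rw [hp]; exact lt_min hq ha
  have bX : ∀ i, BO (q + 1 + p) fun y => √(1 + W y) * (∑ k, Stmt.up D.g i k y * M k y) -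
      ∑ j, z j * Stmt.momT D.g D.K y j i := by
    intro i
    have t1 : BO (q + 1 + p) fun y => (√(1 + W y) - 1) * (M i y - W y / (1 + W y) *
        (∑ l, M l y * nu l y) * nu i y) := by
      have b1 := (bs.mono hp1).mul ((bMM i).sub ((bσ0.bmul bMn).mulb (bl i)))
      rwa [show p + (q + 1) = q + 1 + p by ring] at b1
    have t2 : BO (q + 1 + p) fun y => W y / (1 + W y) * (∑ l, M l y * nu l y) * nu i y := by
      have b1 := ((bσ.mono hp1).mul bMn).mulb (bl i)
      rwa [show p + (q + 1) = q + 1 + p by ring] at b1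
    have t3 : BO (q + 1 + p) fun y => ∑ j, Stmt.momT D.g D.K y i j * (Z j y - z j) :=
      BO.sum Finset.univ fun j => (bM i j).mul ((bZd j).mono hp2)
    refine ((t1.sub t2).add t3).congr (R := R0) fun y hy => ?_
    have Q := hPt y hy
    rw [Fx.up_vec Q (fun k => M k y)]
    have e1 : ∑ j, Stmt.momT D.g D.K y i j * (Z j y - z j) = M i y -
        ∑ j, z j * Stmt.momT D.g D.K y j i := by
      rw [hM, ← Finset.sum_sub_distrib]
      refine Finset.sum_congr rfl fun j _ => ?_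
      have e2 : Stmt.momT D.g D.K y j i = Stmt.momT D.g D.K y i j := by
        unfold Stmt.momT
        rw [(D.symm y j i).1, (D.symm y j i).2]
      rw [e2]
      ring
    rw [e1]
    ring
  have hq2 : (n : ℝ) - 1 < q + 1 + p := by linarith only [hq, hp3]
  have hE : BO (q + 1 + p) fun y => ∑ i, (√(1 + W y) * (∑ k, Stmt.up D.g i k y * M k y) -
      ∑ j, z j * Stmt.momT D.g D.K y j i) * (y i / ‖y‖) :=
    BO.sum _ fun i => (bX i).mulb (BO_th i)
  have g1 : Tendsto (fun r => ∑ j, z j * (((n : ℝ) - 1) * om n *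
      Stmt.flx (fun i x => Stmt.momT D.g D.K x j i) r)) atTop
      (𝓝 (∑ j, z j * (((n : ℝ) - 1) * om n * P j))) :=
    tendsto_finsetSum _ fun j _ => (Tendsto.const_mul _ (hMom j)).const_mul _
  have g2 := (hE.tendsto hq2).add g1
  have e0 : (0 : ℝ) + ∑ j, z j * (((n : ℝ) - 1) * om n * P j) =
      ((n : ℝ) - 1) * om n * ∑ j, z j * P j := by
    rw [zero_add, Finset.mul_sum]
    exact Finset.sum_congr rfl fun j _ => by ring
  rw [e0] at g2
  refine g2.congr' ?_
  filter_upwards [eventually_gt_atTop R0, eventually_gt_atTop 0] with r hr hr0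
  have cM : ∀ i j (y : E n), ‖y‖ = r → ContinuousAt (fun y => Stmt.momT D.g D.K y i j) y :=
    fun i j y hy => H474.L.momT_cont (D.pos y (hPt y (by rw [hy]; exact hr)).hF).det_pos.ne' i j
  have cX : ∀ i (y : E n), ‖y‖ = r → ContinuousAt (fun y => √(1 + W y) *
      (∑ k, Stmt.up D.g i k y * M k y)) y := fun i y hy => by
    have Q := hPt y (by rw [hy]; exact hr)
    refine ((Fx.sq_cd Q.cW Q.oW.ne').continuousAt).mul
      (tendsto_finsetSum _ fun k _ => ContinuousAt.mul (KSS.upD_cd Q.hF i k).continuousAt ?_)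
    rw [hM]
    exact tendsto_finsetSum _ fun j _ => (cM k j y hy).mul (hZ j).continuous.continuousAt
  have e1 : r ^ (n - 1) * SI (fun θ => (fun y : E n => ∑ i, (√(1 + W y) *
      (∑ k, Stmt.up D.g i k y * M k y) - ∑ j, z j * Stmt.momT D.g D.K y j i) *
      (y i / ‖y‖)) (r • θ)) = flux (fun i y => √(1 + W y) *
      (∑ k, Stmt.up D.g i k y * M k y) - ∑ j, z j * Stmt.momT D.g D.K y j i) r := rfl
  have e2 : flux (fun i y => ∑ j, z j * Stmt.momT D.g D.K y j i) r = ∑ j, z j *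
      (((n : ℝ) - 1) * om n * Stmt.flx (fun i x => Stmt.momT D.g D.K x j i) r) := by
    have g3 := KSL.flux_lin (W := fun (j : Fin n) (i : Fin n) (y : E n) =>
      Stmt.momT D.g D.K y j i) hr0 (fun j => -z j) (fun j i y hy => cM j i y hy)
    have g4 : (fun i y => -∑ b, -z b * Stmt.momT D.g D.K y b i) =
        fun (i : Fin n) (y : E n) => ∑ j, z j * Stmt.momT D.g D.K y j i := by
      funext i y
      rw [← Finset.sum_neg_distrib]
      exact Finset.sum_congr rfl fun j _ => by ring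
    rw [g4] at g3
    rw [g3, ← Finset.sum_neg_distrib]
    refine Finset.sum_congr rfl fun j _ => ?_
    rw [← KSN.X5.flx_eq, ← flux_sphInt]
    ring
  rw [e1, ← e2, flux_sub (W := fun i y => √(1 + W y) * (∑ k, Stmt.up D.g i k y * M k y))
    (W' := fun i y => ∑ j, z j * Stmt.momT D.g D.K y j i) hr0 cX
    (fun i y hy => tendsto_finsetSum _ fun j _ => (cM j i y hy).const_mul _), hM]
  ring

end Vale.Agent.P366.CF
end
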