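import Vale.Agent.P366.CF.Fin
import Vale.Agent.P366.CF.FluxZ
import Vale.Agent.P366.H353.CF.DivZ

/-! Data foliated by hypersurfaces of Euclidean space: the inequality with the momentum. -/

open MeasureTheory Metric Filter Topology Set
open scoped ContDiff ENNReal

noncomputable section
namespace Vale.Agent.P366.CF

open Vale.Agent.P366 (pd E flux)
open Vale.Agent.P366.H353.N
open Vale.Agent.P366.Kerr (NullCone IsCut)
open Vale.Agent.P366.Convex (IsSupport ray)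
open Vale.Agent.P366.CH (supC bp)
open Vale.Agent.P366.H474.W (flux_congr flux_sub flux_neg)
open Vale.Agent.P366.KSN.X5 (DP cdd cd_pd)

variable {n : ℕ} {h : E n → ℝ} {nu : Fin n → E n → ℝ} {W : E n → ℝ} {D D' : Stmt.Exterior n}
  {x y : E n}

lemma flux_add' {X Q : Fin n → E n → ℝ} {r : ℝ} (hr : 0 < r)
    (hX : ∀ i, ∀ y : E n, ‖y‖ = r → ContinuousAt (X i) y)
    (hQ : ∀ i, ∀ y : E n, ‖y‖ = r → ContinuousAt (Q i) y) :
    flux (fun i y => X i y + Q i y) r = flux X r + flux Q r := by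
  have h1 := flux_sub hr hX (W' := fun i y => - Q i y) (fun i y hy => (hQ i y hy).neg)
  rw [flux_neg] at h1
  have h2 : (fun (i : Fin n) (y : E n) => X i y - -Q i y) = fun i y => X i y + Q i y := by
    funext i y
    ring
  rw [h2] at h1
  rw [h1]
  ring

/-- The bound by the mass. -/
lemma mass_of' {m B : ℝ} {P z : Fin n → ℝ} (hB : 0 < B) (hle : B ≤ m + ∑ j, z j * P j)
    (hz1 : ∑ j, z j ^ 2 < 1) (hz : ∀ j, m * z j = -P j) :
    √(∑ j, P j ^ 2) < m ∧ B ≤ √(m ^ 2 - ∑ j, P j ^ 2) := by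
  have e1 : ∑ j, z j * P j = -m * ∑ j, z j ^ 2 := by
    rw [Finset.mul_sum]
    refine Finset.sum_congr rfl fun j _ => ?_
    have : P j = -(m * z j) := by rw [hz j]; ring
    rw [this]
    ring
  have e2 : B ≤ m * (1 - ∑ j, z j ^ 2) := by
    rw [e1] at hle
    linarith
  have hm : 0 < m := by
    by_contra hm
    push Not at hm
    have : m * (1 - ∑ j, z j ^ 2) ≤ 0 := mul_nonpos_of_nonpos_of_nonneg hm (by linarith)
    linarith
  exact mass_of hB hle hm hz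

/-- The Penrose inequality with the momentum. -/
theorem mom_CF (hn : 3 ≤ n) (hO : IsCut D' D) (hL : IsFol h nu W D') (hT : D'.Trapped)
    (hAF : D.IsAF) {m : ℝ} (hm : D.IsEnergy m) {P : Fin n → ℝ} (hP : D.IsMomentum P)
    {Z : Fin n → E n → ℝ} {z : Fin n → ℝ} (hZ : ∀ i, Stmt.Smooth (Z i)) {a : ℝ}
    (ha : (n : ℝ) / 2 - 1 < a) (hZa : ∀ i, Stmt.BigO a fun x => Z i x - z i)
    (hZ0 : ∀ x, Stmt.len x = 1 → ∀ i, Z i (ray h x 0) = 0)
    (hden : ∀ y, 0 < D'.F y → 0 ≤ den nu W D'.g D'.K y + √(1 + W y) *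
      (∑ j, Stmt.mom D'.g D'.K j y * Z j y + GraphClass.piDer D'.g D'.K Z y)) :
    ((D.area D'.F).toReal / Stmt.omega n) ^ (((n : ℝ) - 2) / ((n : ℝ) - 1)) / 2 ≤
      m + ∑ j, z j * P j ∧
    ((∀ j, m * z j = -P j) → ∑ j, z j ^ 2 < 1 → √(∑ j, P j ^ 2) < m ∧
      ((D.area D'.F).toReal / Stmt.omega n) ^ (((n : ℝ) - 2) / ((n : ℝ) - 1)) / 2 ≤
        √(m ^ 2 - ∑ j, P j ^ 2)) := by
  have : Fact (3 ≤ n) := ⟨hn⟩
  have hAF' := KSR.cut_AF hO hAF
  have hm' := KSR.cut_energy hO hm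
  have hP' := KSR.cut_momentum hO hP
  obtain ⟨R, hR⟩ := D'.dom.2.2.2
  have hXs : ∀ y, 0 ≤ D'.F y → ∀ i, ContDiffAt ℝ ∞ (XF nu W D'.K i) y :=
    fun y hy i => XF_smooth hL hy i
  have hQs : ∀ y, 0 ≤ D'.F y → ∀ i, ContDiffAt ℝ ∞ (QZ W D'.g D'.K Z i) y :=
    fun y hy i => QZ_cd hL hZ hy i
  have hlim : Tendsto (flux fun i y => XF nu W D'.K i y + QZ W D'.g D'.K Z i y) atTop
      (𝓝 (((n : ℝ) - 1) * om n * (m + ∑ j, z j * P j))) := by
    have h1 := (flux_XF hL hAF' hm').add (flux_QZ_aux hL hAF' hP' hZ ha hZa)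
    rw [← mul_add] at h1
    refine h1.congr' ?_
    filter_upwards [eventually_gt_atTop (max R 0)] with r hr
    have hr0 : 0 < r := lt_of_le_of_lt (le_max_right _ _) hr
    have hmem : ∀ y : E n, ‖y‖ = r → 0 ≤ D'.F y := fun y hy =>
      (hR y (by show R < ‖y‖; rw [hy]; exact lt_of_le_of_lt (le_max_left _ _) hr)).le
    exact (flux_add' hr0 (fun i y hy => (hXs y (hmem y hy) i).continuousAt)
      (fun i y hy => (hQs y (hmem y hy) i).continuousAt)).symm
  have h7 := energy_gen hL (X := fun i y => XF nu W D'.K i y + QZ W D'.g D'.K Z i y)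
    (fun y hy i => (hXs y hy i).add (hQs y hy i)) hlim
    (fun x hx => by
      have h3 : ∀ i, QZ W D'.g D'.K Z i (ray h x 0) = 0 := by
        intro i
        unfold QZ
        have h4 : ∀ j, Z j (ray h x 0) = 0 := fun j => hZ0 x hx j
        simp [h4]
      simp only [h3, add_zero]
      exact bdr_half hL hT hx)
    (fun y hy => by
      have e : ∀ i, pd i (fun y => XF nu W D'.K i y + QZ W D'.g D'.K Z i y) y =
          pd i (XF nu W D'.K i) y + pd i (QZ W D'.g D'.K Z i) y := fun i =>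
        ((DP.of (cdd (hXs y hy.le i))).add (DP.of (cdd (hQs y hy.le i)))).2
      simp only [e, Finset.sum_add_distrib]
      rw [div_XF hL hy, div_QZ hL hZ hy]
      exact hden y hy)
  obtain ⟨-, -, h3, -, h6⟩ := area_cutCF hL hO
  exact ⟨h6.trans h7, fun hz hz1 =>
    ⟨(mass_of' h3 h7 hz1 hz).1, h6.trans (mass_of' h3 h7 hz1 hz).2⟩⟩

end Vale.Agent.P366.CF
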