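import Vale.Agent.P366.CF.Bd
import Vale.Agent.P366.H208.CL.Pos

/-! Foliated initial data: the density is nonnegative. -/

open MeasureTheory Metric Filter Topology Set
open scoped ContDiff ENNReal

noncomputable section
namespace Vale.Agent.P366.CF

open Vale.Agent.P366 (pd E flux)

variable {n : ℕ} {h : E n → ℝ} {nu : Fin n → E n → ℝ} {W : E n → ℝ} {D : Stmt.Exterior n}
  {x y z : E n} {s : ℝ}

/-- `|τ| ≤ H` -/
lemma rat_le (hL : IsFol h nu W D) (hy : 0 ≤ D.F y)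
    (hh : |trL nu D.K y| ≤ mcl nu y / √(1 + W y)) : |rat nu W D.K y| ≤ 1 := by
  have h1 := hL.mcp y hy
  have h2 := Real.sqrt_pos.2 (one_W_pos hL hy)
  unfold rat kap
  rw [abs_mul, abs_div, abs_of_pos h1, abs_of_pos h2, div_mul_eq_mul_div, div_le_one h1]
  rwa [le_div_iff₀ h2] at hh

/-- The density is at least `quad` at a point with `|τ| ≤ H`. -/
theorem quad_le_den (hL : IsFol h nu W D) (hD : D.DEC) (hy : 0 ≤ D.F y)
    (hh : |trL nu D.K y| ≤ mcl nu y / √(1 + W y)) :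
    quad nu W D.K y ≤ den nu W D.g D.K y := by
  have h0 := rat_le hL hy hh
  have h1 := Stmt.CLt.cov_ge (hL.unit y hy) (one_W_pos hL hy) (hL.met y hy) (Stmt.mom D.g D.K)
  have h2 := hD y hy
  have h3 : 0 ≤ Stmt.covNorm D.g (Stmt.mom D.g D.K) y := Real.sqrt_nonneg _
  have h4 : rat nu W D.K y * ((∑ i, Stmt.mom D.g D.K i y * nu i y) / √(1 + W y)) ≤
      Stmt.covNorm D.g (Stmt.mom D.g D.K) y := by
    refine (le_abs_self _).trans ?_
    rw [abs_mul]
    calc _ ≤ 1 * Stmt.covNorm D.g (Stmt.mom D.g D.K) y :=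
          mul_le_mul h0 h1 (abs_nonneg _) zero_le_one
      _ = _ := one_mul _
  have h5 : 0 ≤ ∑ i, ∑ j, sig nu D.K i j y ^ 2 :=
    Finset.sum_nonneg fun i _ => Finset.sum_nonneg fun j _ => sq_nonneg _
  unfold den
  rw [mul_div_assoc]
  linarith

/-- The density is nonnegative at a point with `|τ| ≤ H` and `0 ≤ quad`. -/
theorem den_nonneg (hL : IsFol h nu W D) (hD : D.DEC) (hy : 0 ≤ D.F y)
    (hh : |trL nu D.K y| ≤ mcl nu y / √(1 + W y)) (hq : 0 ≤ quad nu W D.K y) :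
    0 ≤ den nu W D.g D.K y := hq.trans (quad_le_den hL hD hy hh)

/-- The density is positive at a point with `|τ| ≤ H` and `0 < quad`. -/
theorem den_pos (hL : IsFol h nu W D) (hD : D.DEC) (hy : 0 ≤ D.F y)
    (hh : |trL nu D.K y| ≤ mcl nu y / √(1 + W y)) (hq : 0 < quad nu W D.K y) :
    0 < den nu W D.g D.K y := hq.trans_le (quad_le_den hL hD hy hh)

theorem den_of (hL : IsFol h nu W D) (hD : D.DEC) (hy : 0 ≤ D.F y)
    (hle : LeafAt nu W D.g D.K y) : 0 ≤ den nu W D.g D.K y := by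
  rcases hle with ⟨h1, h2⟩ | h1
  · exact den_nonneg hL hD hy h1 h2
  · exact h1

end Vale.Agent.P366.CF
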