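import Vale.Agent.P366.CF.DefsP
import Vale.Agent.P366.CF.Pos
import Vale.Agent.P366.H222.CL.Final

/-! Foliated initial data: the case of parallel leaves. -/

open MeasureTheory Metric Filter Topology Set
open scoped ContDiff ENNReal

noncomputable section
namespace Vale.Agent.P366.CF

open Vale.Agent.P366 (pd E flux)
open Vale.Agent.P366.H353.N
open Vale.Agent.P366.Kerr (NullCone Psi IsCut IsSchwSlice)
open Vale.Agent.P366.KSN (Y dts sg Ms OO mem_OO)
open Vale.Agent.P366.Convex (IsSupport ray)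
open Vale.Agent.P366.CH (supC supH sup_sm psi_ray dom_one ray_sup)

variable {n : ℕ} {h : E n → ℝ} {nu : Fin n → E n → ℝ} {W : E n → ℝ} {D : Stmt.Exterior n}
  {x y z : E n} {s : ℝ}

/-- The distance from the body, if the leaves are parallel. -/
def lamF (h : E n → ℝ) (nu : Fin n → E n → ℝ) (y : E n) : ℝ :=
  ∑ i, nu i y * y i - h (WithLp.toLp 2 fun i => nu i y)

lemma lamF_cd (hL : IsFol h nu W D) (hy : 0 ≤ D.F y) : ContDiffAt ℝ ∞ (lamF h nu) y := by
  have h1 : ContDiffAt ℝ ∞ (fun z => (WithLp.toLp 2 fun i => nu i z : E n)) y := by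
    rw [contDiffAt_euclidean]
    exact fun i => hL.smN y hy i
  have h0 : (WithLp.toLp 2 fun i => nu i y : E n) ≠ 0 := by
    intro e
    have h2 := hL.unit y hy
    have : ∀ i, nu i y = 0 := fun i => congrArg (fun v : E n => v i) e
    simp [this] at h2
  refine ContDiffAt.sub (ContDiffAt.sum fun i _ => (hL.smN y hy i).mul ?_) ?_
  · exact (EuclideanSpace.proj (𝕜 := ℝ) i : E n →L[ℝ] ℝ).contDiff.contDiffAt
  · exact (sup_sm hL.sup _ h0).comp y h1

lemma lamF_ray [Fact (3 ≤ n)] (hL : IsFol h nu W D) (hp : Parallel h nu) (hx : ‖x‖ = 1)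
    (hs : 0 ≤ s) : lamF h nu (ray h x s) = s := by
  have h1 : ∀ i, nu i (ray h x s) = x i := hp x s hx hs
  unfold lamF
  simp only [h1]
  have h2 : (WithLp.toLp 2 fun i => x i : E n) = x := rfl
  rw [h2]
  have h3 : ∑ i, x i * (ray h x s) i = h x + s := by
    have := CH.dot_Y hL.sup hx (1 + s)
    rw [ray_sup hL.sup hx] at this
    rw [this]
    ring
  rw [h3]
  ring

lemma lamS [Fact (3 ≤ n)] (hL : IsFol h nu W D) (hp : Parallel h nu) :
    CLam.LamS (supC hL.sup) (fun z => lamF h nu z + 1) D where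
  dom := dom_one hL.sup hL.dom
  bdF := fun z hz hU => by
    have hU' : ‖z‖ = 1 := hU
    show D.F (Psi (supH h) z) = 0
    rw [psi_ray hL.sup hz, hU']
    simpa using F_ray hL hU'
  smL := fun y hy => (lamF_cd hL hy).add contDiffAt_const
  eqL := fun z hz hU => by
    have hn : 0 < ‖z‖ := norm_pos_iff.2 hz
    have hU' : (1 : ℝ) ≤ ‖z‖ := hU
    show lamF h nu (Psi (supH h) z) + 1 = ‖z‖
    rw [psi_ray hL.sup hz, lamF_ray hL hp ?_ (by linarith)]
    · ring
    · rw [norm_smul, norm_inv, norm_norm, inv_mul_cancel₀ hn.ne']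

/-- the gradient of the distance is the unit normal -/
lemma spd_lamF [Fact (3 ≤ n)] (hL : IsFol h nu W D) (hp : Parallel h nu) (hy : 0 ≤ D.F y)
    (i : Fin n) : Stmt.pd i (lamF h nu) y = nu i y := by
  obtain ⟨x, s, hx, hs, rfl⟩ := (mem_iff hL).1 hy
  have hs' : (1 : ℝ) ≤ s := hs
  have h1 := CLam.spd_lam_Y (lamS hL hp) hx hs i
  rw [CL.pd_shift] at h1
  rw [h1]
  have h2 := hp x (s - 1) hx (by linarith) i
  rw [← ray_sup hL.sup hx] at h2
  have h3 : 1 + (s - 1) = s := by ring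
  rw [h3] at h2
  exact h2.symm

theorem leaves_of [Fact (3 ≤ n)] (hL : IsFol h nu W D) (hp : Parallel h nu) :
    CL.IsLeaves h (lamF h nu) W D where
  dom := hL.dom
  smL := fun y hy => lamF_cd hL hy
  eqL := fun x s hx hs => lamF_ray hL hp hx hs
  smW := hL.smW
  met := fun y hy i j => by
    rw [spd_lamF hL hp hy, spd_lamF hL hp hy]
    exact hL.met y hy i j

section eqs

variable [Fact (3 ≤ n)] (hL : IsFol h nu W D) (hp : Parallel h nu)
include hL hp

lemma spd2_lamF (hy : 0 < D.F y) (i j : Fin n) :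
    Stmt.pd i (Stmt.pd j (lamF h nu)) y = Stmt.pd i (nu j) y :=
  Vale.Agent.P366.H375.pd_congr
    ((evB_pos hy).mono fun _ hz => spd_lamF hL hp hz.le j) i

lemma dnu_symm (hy : 0 < D.F y) (i j : Fin n) : Stmt.pd i (nu j) y = Stmt.pd j (nu i) y := by
  have hc := lamF_cd hL hy.le
  rw [← spd2_lamF hL hp hy, ← spd2_lamF hL hp hy, KSN.stmt_pd2 hc, KSN.stmt_pd2 hc]
  exact KSN.X5.hs_symm' hc i j

lemma cur_zero (hy : 0 < D.F y) (i : Fin n) : cur nu i y = 0 := by
  rw [← nu_dnu_s hL hy.le i]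
  exact Finset.sum_congr rfl fun j _ => by rw [dnu_symm hL hp hy]

lemma lapL_par (hy : 0 < D.F y) : CL.lapL (lamF h nu) y = mcl nu y :=
  Finset.sum_congr rfl fun i _ => spd2_lamF hL hp hy i i

lemma col_par (hy : 0 ≤ D.F y) (i : Fin n) : CL.col (lamF h nu) D.K i y = col nu D.K i y :=
  Finset.sum_congr rfl fun j _ => by rw [spd_lamF hL hp hy]

lemma nn_par (hy : 0 ≤ D.F y) : CL.nn (lamF h nu) D.K y = nn nu D.K y :=
  Finset.sum_congr rfl fun j _ => by rw [spd_lamF hL hp hy, col_par hL hp hy]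

lemma trL_par (hy : 0 ≤ D.F y) : CL.trL (lamF h nu) D.K y = trL nu D.K y := by
  unfold CL.trL trL
  rw [nn_par hL hp hy]

lemma kap_par (hy : 0 < D.F y) : CL.kap (lamF h nu) D.K y = kap nu D.K y := by
  unfold CL.kap kap
  rw [trL_par hL hp hy.le, lapL_par hL hp hy]

lemma rat_par (hy : 0 < D.F y) : CL.rat (lamF h nu) W D.K y = rat nu W D.K y := by
  unfold CL.rat rat
  rw [kap_par hL hp hy]

lemma alf_par (hy : 0 ≤ D.F y) (i : Fin n) :
    CL.alf (lamF h nu) W D.K i y = alf nu W D.K i y := by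
  unfold CL.alf alf
  rw [col_par hL hp hy, nn_par hL hp hy, spd_lamF hL hp hy]

lemma grd_par (φ : E n → ℝ) (hy : 0 ≤ D.F y) (i : Fin n) :
    CL.grd (lamF h nu) φ i y = grd nu φ i y := by
  unfold CL.grd grd
  simp only [spd_lamF hL hp hy]

lemma acc_par (hy : 0 ≤ D.F y) (i : Fin n) : CL.acc (lamF h nu) W i y = acc nu W i y := by
  unfold CL.acc acc
  rw [grd_par hL hp W hy]

lemma grd_rat_par (hy : 0 < D.F y) (i : Fin n) :
    CL.grd (lamF h nu) (CL.rat (lamF h nu) W D.K) i y = grd nu (rat nu W D.K) i y := by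
  rw [grd_par hL hp _ hy.le]
  have e : ∀ j, Stmt.pd j (CL.rat (lamF h nu) W D.K) y = Stmt.pd j (rat nu W D.K) y := fun j =>
    Vale.Agent.P366.H375.pd_congr ((evB_pos hy).mono fun z hz => rat_par hL hp hz) j
  unfold grd
  simp only [e]

lemma sig_par (hy : 0 < D.F y) (i j : Fin n) :
    CL.sig (lamF h nu) D.K i j y = sig nu D.K i j y := by
  unfold CL.sig sig sff
  rw [spd2_lamF hL hp hy, kap_par hL hp hy, nn_par hL hp hy.le, col_par hL hp hy.le,
    col_par hL hp hy.le, spd_lamF hL hp hy.le, spd_lamF hL hp hy.le, cur_zero hL hp hy]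
  ring

lemma den_par (hy : 0 < D.F y) : CL.den (lamF h nu) W D.g D.K y = den nu W D.g D.K y := by
  unfold CL.den den quad
  simp only [rat_par hL hp hy, sig_par hL hp hy, alf_par hL hp hy.le, acc_par hL hp hy.le,
    grd_rat_par hL hp hy, spd_lamF hL hp hy.le, cur_zero hL hp hy, zero_mul,
    Finset.sum_const_zero]
  ring

end eqs

/-- The case of equality for parallel leaves. -/
theorem rigid_CF (hn : 3 ≤ n) {D D' : Stmt.Exterior n} (hO : IsCut D' D) (hL : IsFol h nu W D')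
    (hp : Parallel h nu) (hD : D'.DEC) (hT : D'.Trapped)
    (hle : ∀ y, 0 < D'.F y → LeafAt nu W D'.g D'.K y) (hAF : D.IsAF) {m : ℝ}
    (hm : D.IsEnergy m) (hst : ∀ y, 0 < D'.F y → ParStrictAt nu W D'.g D'.K y)
    (he : ((D.area D'.F).toReal / Stmt.omega n) ^ (((n : ℝ) - 2) / ((n : ℝ) - 1)) / 2 = m) :
    ∃ c r₀ f, IsSchwSlice c r₀ f D' := by
  have : Fact (3 ≤ n) := ⟨hn⟩
  refine (CL.final_CL hn hL.sup hO (leaves_of hL hp) hD hT (fun y hy => Or.inr ?_) hAF hm).2
    (fun y hy => ?_) he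
  · rw [den_par hL hp hy]
    exact den_of hL hD hy.le (hle y hy)
  · rcases hst y hy with ⟨h1, h2⟩ | h1
    · rcases h2 with h2 | h2
      · refine Or.inl ⟨?_, Or.inl fun i => ?_⟩
        · rw [trL_par hL hp hy.le, lapL_par hL hp hy]
          exact h1
        · rw [alf_par hL hp hy.le]
          exact h2 i
      · refine Or.inr ?_
        rw [den_par hL hp hy]
        exact den_pos hL hD hy.le h1.le h2
    · refine Or.inr ?_
      rw [den_par hL hp hy]
      exact h1

end Vale.Agent.P366.CF
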