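import Vale.Agent.P366.MathlibUsed
import Vale.Agent.P366.CL.Flux

/-! Contractions of the first derivatives of the metric `δ + W ν ⊗ ν`. -/

open MeasureTheory Metric Filter Topology Set
open scoped ContDiff ENNReal

noncomputable section
namespace Vale.Agent.P366.CF

open Vale.Agent.P366.H353.N (kd)

variable {n : ℕ} {a w e : Fin n → ℝ} {b : Fin n → Fin n → ℝ} {W ρ σ : ℝ}

/-- contraction with the inverse metric -/
lemma ctr (a : Fin n → ℝ) (σ : ℝ) (x : Fin n → Fin n → ℝ) :
    ∑ k, ∑ l, (kd k l - σ * a k * a l) * x k l =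
      ∑ k, x k k - σ * ∑ k, a k * ∑ l, a l * x k l := by
  have e : ∀ k, ∑ l, (kd k l - σ * a k * a l) * x k l =
      x k k - σ * (a k * ∑ l, a l * x k l) := by
    intro k
    have e1 : ∀ l, (kd k l - σ * a k * a l) * x k l =
        kd k l * x k l - σ * (a k * (a l * x k l)) := fun l => by ring
    simp only [e1, Finset.sum_sub_distrib, ← Finset.mul_sum]
    congr 1
    simp [kd]
  simp only [e, Finset.sum_sub_distrib, ← Finset.mul_sum]

lemma ctr1 (a v : Fin n → ℝ) (σ : ℝ) (k : Fin n) :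
    ∑ l, (kd k l - σ * a k * a l) * v l = v k - σ * (∑ l, v l * a l) * a k := by
  have e1 : ∀ l, (kd k l - σ * a k * a l) * v l =
      kd k l * v l - σ * a k * (v l * a l) := fun l => by ring
  simp only [e1, Finset.sum_sub_distrib, ← Finset.mul_sum]
  have : ∑ l, kd k l * v l = v k := by simp [kd]
  rw [this]
  ring

section

variable (ha : ∑ i, a i * a i = 1) (hb : ∀ i, ∑ j, b i j * a j = 0)
  (he : ∀ j, ∑ i, a i * b i j = e j)

include hb in
lemma b_mul (v : Fin n → ℝ) : ∑ i, v i * ∑ j, b i j * a j = 0 := by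
  simp [hb]

include hb he in
lemma e_a : ∑ j, e j * a j = 0 := by
  have h : ∀ j, e j * a j = ∑ i, a i * (b i j * a j) := fun j => by
    rw [← he j, Finset.sum_mul]; exact Finset.sum_congr rfl fun i _ => by ring
  simp only [h]
  rw [Finset.sum_comm]
  simp only [← Finset.mul_sum, hb, mul_zero, Finset.sum_const_zero]

include he in
lemma a_bv (v : Fin n → ℝ) : ∑ k, (∑ i, b k i * v i) * a k = ∑ i, e i * v i := by
  have h : ∀ i, e i * v i = ∑ k, b k i * v i * a k := fun i => by
    rw [← he i, Finset.sum_mul]; exact Finset.sum_congr rfl fun k _ => by ring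
  simp only [h, Finset.sum_mul]
  exact Finset.sum_comm

include hb in
lemma bb_a (k : Fin n) : ∑ l, a l * ∑ i, b k i * b i l = 0 := by
  simp only [Finset.mul_sum]
  rw [Finset.sum_comm]
  have : ∀ i, ∑ l, a l * (b k i * b i l) = b k i * ∑ l, b i l * a l := fun i => by
    rw [Finset.mul_sum]; exact Finset.sum_congr rfl fun k _ => by ring
  simp only [this, hb, mul_zero, Finset.sum_const_zero]

include he in
lemma abb (l : Fin n) : ∑ i, a i * ∑ j, b i j * b l j = ∑ j, b l j * e j := by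
  have h : ∀ j, b l j * e j = ∑ i, a i * (b i j * b l j) := fun j => by
    rw [← he j, Finset.mul_sum]; exact Finset.sum_congr rfl fun i _ => by ring
  simp only [h, Finset.mul_sum]
  exact Finset.sum_comm

include ha hb he

lemma q1_in (k l : Fin n) : ∑ i, ∑ j, (-(ρ ^ 2 * w k * a i * a j + σ * (b k i * a j + a i * b k j))) *
    (w i * a j * a l + W * b i j * a l + W * a j * b i l) =
    -(ρ ^ 2 * w k * (∑ i, w i * a i) * a l + ρ ^ 2 * W * (w k * e l) +
      σ * (∑ i, b k i * w i) * a l + σ * W * (∑ i, b k i * b i l) +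
      σ * W * (∑ j, b k j * e j) * a l) := by
  have e1 : ∀ i j, (-(ρ ^ 2 * w k * a i * a j + σ * (b k i * a j + a i * b k j))) *
      (w i * a j * a l + W * b i j * a l + W * a j * b i l) =
      -((ρ ^ 2 * w k * a l * (w i * a i) + ρ ^ 2 * w k * W * (a i * b i l) +
        σ * a l * (b k i * w i) + σ * W * (b k i * b i l)) * (a j * a j) +
        (ρ ^ 2 * w k * W * a l * a i + σ * W * a l * b k i) * (b i j * a j) +
        (σ * a l * (w i * a i) + σ * W * (a i * b i l)) * (b k j * a j) +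
        σ * W * a l * (a i * (b i j * b k j))) := fun i j => by ring
  simp only [e1, Finset.sum_neg_distrib, Finset.sum_add_distrib, ← Finset.mul_sum, ha, hb, mul_zero,
    mul_one, add_zero, he, abb he]
  ring

omit he in
lemma q2_in (k l : Fin n) : ∑ i, ∑ j, (-(ρ ^ 2 * w k * a i * a j + σ * (b k i * a j + a i * b k j))) *
    (w l * a i * a j + W * b l i * a j + W * a i * b l j) =
    -(ρ ^ 2 * (w k * w l) + 2 * σ * W * ∑ i, b k i * b l i) := by
  have e1 : ∀ i j, (-(ρ ^ 2 * w k * a i * a j + σ * (b k i * a j + a i * b k j))) *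
      (w l * a i * a j + W * b l i * a j + W * a i * b l j) =
      -((ρ ^ 2 * w k * w l * (a i * a i) + ρ ^ 2 * w k * W * (b l i * a i) +
        σ * w l * (b k i * a i) + σ * W * (b k i * b l i)) * (a j * a j) +
        (ρ ^ 2 * w k * W * (a i * a i) + σ * W * (b k i * a i)) * (b l j * a j) +
        (σ * w l * (a i * a i) + σ * W * (b l i * a i)) * (b k j * a j) +
        σ * W * (a i * a i) * (b k j * b l j)) := fun i j => by
    ring
  simp only [e1, Finset.sum_neg_distrib, Finset.sum_add_distrib, ← Finset.mul_sum,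
    ← Finset.sum_mul, ha, hb, mul_zero, mul_one, add_zero]
  ring

lemma q1_out : ∑ k, ∑ l, (kd k l - σ * a k * a l) *
    (-(ρ ^ 2 * w k * (∑ i, w i * a i) * a l + ρ ^ 2 * W * (w k * e l) +
      σ * (∑ i, b k i * w i) * a l + σ * W * (∑ i, b k i * b i l) +
      σ * W * (∑ j, b k j * e j) * a l)) =
    -(ρ ^ 2 * (1 - σ) * (∑ i, w i * a i) ^ 2 + (ρ ^ 2 * W + σ * (1 - σ)) * (∑ i, e i * w i) +
      σ * W * (∑ k, ∑ i, b k i * b i k) + σ * W * (1 - σ) * ∑ i, e i * e i) := by
  rw [ctr a σ fun k l => -(ρ ^ 2 * w k * (∑ i, w i * a i) * a l + ρ ^ 2 * W * (w k * e l) +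
      σ * (∑ i, b k i * w i) * a l + σ * W * (∑ i, b k i * b i l) +
      σ * W * (∑ j, b k j * e j) * a l)]
  have hea := e_a hb he
  have e1 : ∀ k, ∑ l, a l * (-(ρ ^ 2 * w k * (∑ i, w i * a i) * a l + ρ ^ 2 * W * (w k * e l) +
      σ * (∑ i, b k i * w i) * a l + σ * W * (∑ i, b k i * b i l) +
      σ * W * (∑ j, b k j * e j) * a l)) =
      -(ρ ^ 2 * w k * (∑ i, w i * a i) + σ * (∑ i, b k i * w i) +
        σ * W * (∑ j, b k j * e j)) := by
    intro k
    have e2 : ∀ l, a l * (-(ρ ^ 2 * w k * (∑ i, w i * a i) * a l + ρ ^ 2 * W * (w k * e l) +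
      σ * (∑ i, b k i * w i) * a l + σ * W * (∑ i, b k i * b i l) +
      σ * W * (∑ j, b k j * e j) * a l)) =
      -((ρ ^ 2 * w k * (∑ i, w i * a i) + σ * (∑ i, b k i * w i) +
        σ * W * (∑ j, b k j * e j)) * (a l * a l) + ρ ^ 2 * W * w k * (e l * a l) +
        σ * W * (a l * ∑ i, b k i * b i l)) := fun l => by ring
    simp only [e2, Finset.sum_neg_distrib, Finset.sum_add_distrib, ← Finset.mul_sum, ha, hea,
      bb_a hb, mul_one, mul_zero, add_zero]
  simp only [e1]
  have e3 : ∀ k, a k * -(ρ ^ 2 * w k * (∑ i, w i * a i) + σ * (∑ i, b k i * w i) +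
        σ * W * (∑ j, b k j * e j)) =
      -(ρ ^ 2 * (∑ i, w i * a i) * (w k * a k) + σ * ((∑ i, b k i * w i) * a k) +
        σ * W * ((∑ j, b k j * e j) * a k)) :=
    fun k => by ring
  have e4 : ∀ k, -(ρ ^ 2 * w k * (∑ i, w i * a i) * a k + ρ ^ 2 * W * (w k * e k) +
      σ * (∑ i, b k i * w i) * a k + σ * W * (∑ i, b k i * b i k) +
      σ * W * (∑ j, b k j * e j) * a k) =
      -(ρ ^ 2 * (∑ i, w i * a i) * (w k * a k) + ρ ^ 2 * W * (e k * w k) +
      σ * ((∑ i, b k i * w i) * a k) + σ * W * (∑ i, b k i * b i k) +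
      σ * W * ((∑ j, b k j * e j) * a k)) := fun k => by ring
  simp only [e3, e4, Finset.sum_neg_distrib, Finset.sum_add_distrib, ← Finset.mul_sum,
    a_bv he w, a_bv he e]
  ring

omit ha hb in
lemma q2_out : ∑ k, ∑ l, (kd k l - σ * a k * a l) *
    (-(ρ ^ 2 * (w k * w l) + 2 * σ * W * ∑ i, b k i * b l i)) =
    -(ρ ^ 2 * (∑ i, w i * w i - σ * (∑ i, w i * a i) ^ 2) +
      2 * σ * W * ((∑ k, ∑ i, b k i * b k i) - σ * ∑ i, e i * e i)) := by
  rw [ctr a σ fun k l => -(ρ ^ 2 * (w k * w l) + 2 * σ * W * ∑ i, b k i * b l i)]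
  have z2 : ∀ k, ∑ l, a l * ∑ i, b k i * b l i = ∑ i, b k i * e i := fun k => by
    rw [← abb he k]
    exact Finset.sum_congr rfl fun l _ => by
      congr 1; exact Finset.sum_congr rfl fun i _ => mul_comm _ _
  have e1 : ∀ k, ∑ l, a l * (-(ρ ^ 2 * (w k * w l) + 2 * σ * W * ∑ i, b k i * b l i)) =
      -(ρ ^ 2 * w k * (∑ i, w i * a i) + 2 * σ * W * ∑ i, b k i * e i) := by
    intro k
    have e2 : ∀ l, a l * (-(ρ ^ 2 * (w k * w l) + 2 * σ * W * ∑ i, b k i * b l i)) =
      -(ρ ^ 2 * w k * (w l * a l) + 2 * σ * W * (a l * ∑ i, b k i * b l i)) := fun l => by ring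
    simp only [e2, Finset.sum_neg_distrib, Finset.sum_add_distrib, ← Finset.mul_sum, z2]
  simp only [e1]
  have e3 : ∀ k, a k * -(ρ ^ 2 * w k * (∑ i, w i * a i) + 2 * σ * W * ∑ i, b k i * e i) =
      -(ρ ^ 2 * (∑ i, w i * a i) * (w k * a k) +
        2 * σ * W * ((∑ i, b k i * e i) * a k)) := fun k => by ring
  simp only [e3, Finset.sum_neg_distrib, Finset.sum_add_distrib, ← Finset.mul_sum, a_bv he e]
  ring

omit ha hb in
/-- for a normal of a foliation -/
lemma sq_b (hs : ∀ i j, b i j = b j i + a i * e j - a j * e i)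
    (hb : ∀ i, ∑ j, b i j * a j = 0) :
    ∑ k, ∑ i, b k i * b k i = (∑ k, ∑ i, b k i * b i k) + ∑ i, e i * e i := by
  have e1 : ∀ k i, b k i * b k i = b k i * b i k + (a k * b k i) * e i - e k * (b k i * a i) :=
    fun k i => by
      conv_lhs => rw [show b k i * b k i = b k i * (b i k + a k * e i - a i * e k) by rw [← hs k i]]
      ring
  simp only [e1, Finset.sum_sub_distrib, Finset.sum_add_distrib, ← Finset.mul_sum, hb, mul_zero,
    sub_zero]
  congr 1
  rw [Finset.sum_comm]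
  simp only [← Finset.sum_mul, he]

end

end Vale.Agent.P366.CF
end
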